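import Mathlib.Analysis.Normed.Module.DoubleDual
import Mathlib.Analysis.Normed.Module.FiniteDimension
import Mathlib.Topology.MetricSpace.Lipschitz

/-! Definitions: the Lipschitz-free space, the bounded approximation property, Lipschitz retracts
of the bidual and of dual spaces. -/

namespace Vale.Agent.N090R

open scoped NNReal

/-- `X` with `δ : M → X` is the Lipschitz-free space of `M` with base point `o`: a Banach space
containing `M` isometrically, `o` as the origin, with dense span, such that every function with
Lipschitz constant at most `1` vanishing at `o` extends to a functional of norm at most `1`.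
So `φ ↦ φ ∘ δ` is an isometry of `X*` onto `Lip₀(M)` and `X` is the closed span of the evaluation
functionals in `X** = Lip₀(M)*`. -/
structure IsFree {M X : Type} [MetricSpace M] [NormedAddCommGroup X] [NormedSpace ℝ X] (o : M)
    (δ : M → X) : Prop where
  complete : CompleteSpace X
  isometry : Isometry δ
  base : δ o = 0
  dense : Dense (Submodule.span ℝ (Set.range δ) : Set X)
  extend : ∀ f : M → ℝ, LipschitzWith 1 f → f o = 0 →
    ∃ φ : StrongDual ℝ X, ‖φ‖ ≤ 1 ∧ ∀ x, φ (δ x) = f x

/-- The `lam`-bounded approximation property. -/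
def BAP (lam : ℝ) (X : Type) [NormedAddCommGroup X] [NormedSpace ℝ X] : Prop :=
  ∀ K : Set X, IsCompact K → ∀ ε > 0, ∃ T : X →L[ℝ] X,
    FiniteDimensional ℝ (LinearMap.range (T : X →ₗ[ℝ] X)) ∧ ‖T‖ ≤ lam ∧
      ∀ u ∈ K, ‖T u - u‖ < ε

/-- The map `ι : X → Y` has a left inverse which is `L`-Lipschitz on the set `S`. -/
def Retr (L : ℝ≥0) {X Y : Type} [NormedAddCommGroup X] [NormedAddCommGroup Y] (ι : X → Y)
    (S : Set Y) : Prop :=
  ∃ R : Y → X, LipschitzOnWith L R S ∧ ∀ x, R (ι x) = x

/-- On some closed separable subspace of `Y` containing the image of `ι : X → Y` no left inverse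
of `ι` is Lipschitz. -/
def NoSepRetr {X Y : Type} [NormedAddCommGroup X] [NormedAddCommGroup Y] [NormedSpace ℝ Y]
    (ι : X → Y) : Prop :=
  ∃ W : Submodule ℝ Y, IsClosed (W : Set Y) ∧ TopologicalSpace.IsSeparable (W : Set Y) ∧
    (∀ x, ι x ∈ W) ∧ ∀ L, ¬ Retr L ι W

/-- The identity of `X` factors through `Y` by Lipschitz maps with constants `K` and `L`. -/
def Factor (K L : ℝ≥0) (X Y : Type) [NormedAddCommGroup X] [NormedAddCommGroup Y] : Prop :=
  ∃ j : X → Y, LipschitzWith K j ∧ Retr L j Set.univ

/-- The canonical embedding of `X` in its bidual. -/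
noncomputable def can (X : Type) [NormedAddCommGroup X] [NormedSpace ℝ X] (x : X) :
    StrongDual ℝ (StrongDual ℝ X) :=
  NormedSpace.inclusionInDoubleDual ℝ X x

/-- `X` is an `L`-Lipschitz retract of its bidual. -/
def BidualRetract (L : ℝ≥0) (X : Type) [NormedAddCommGroup X] [NormedSpace ℝ X] : Prop :=
  Retr L (can X) Set.univ

/-- `X` is not a Lipschitz retract of some closed separable subspace of its bidual containing
it. -/
def NoSepRetract (X : Type) [NormedAddCommGroup X] [NormedSpace ℝ X] : Prop :=
  NoSepRetr (can X)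

/-- The identity of `X` factors through a dual Banach space by Lipschitz maps with constants `K`
and `L`. -/
def DualFactor (K L : ℝ≥0) (X : Type) [NormedAddCommGroup X] : Prop :=
  ∃ (Z : Type) (_ : NormedAddCommGroup Z) (_ : NormedSpace ℝ Z), Factor K L X (StrongDual ℝ Z)

end Vale.Agent.N090R
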