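import Vale.Agent.N090R.Local
import Mathlib.Analysis.SpecialFunctions.Log.Basic

/-! The free space of a countable uniformly discrete space: approximate linear retractions of the
bidual give the bounded approximation property. -/

set_option linter.unusedSectionVars false

namespace Vale.Agent.N090R

open Filter Topology
open scoped NNReal

variable {M X : Type} [MetricSpace M] [NormedAddCommGroup X] [NormedSpace ℝ X] {o : M} {δ : M → X}

theorem IsFree.norm_sub (h : IsFree o δ) (x y : M) : ‖δ x - δ y‖ = dist x y := by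
  rw [← dist_eq_norm, h.isometry.dist_eq]

theorem IsFree.norm_pt (h : IsFree o δ) (x : M) : ‖δ x‖ = dist x o := by
  rw [← h.norm_sub, h.base, sub_zero]

theorem IsFree.extend' (h : IsFree o δ) (f : M → ℝ) {C : ℝ} (hC : 0 ≤ C)
    (hf : ∀ x y, |f x - f y| ≤ C * dist x y) (h0 : f o = 0) :
    ∃ φ : StrongDual ℝ X, ‖φ‖ ≤ C ∧ ∀ x, φ (δ x) = f x := by
  rcases hC.eq_or_lt with rfl | hp
  · refine ⟨0, by simp, fun x => ?_⟩
    have := hf x o
    rw [h0, sub_zero, zero_mul] at this
    simp [abs_nonpos_iff.1 this]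
  obtain ⟨φ, h1, h2⟩ := h.extend (fun x => C⁻¹ * f x) (LipschitzWith.of_dist_le_mul fun x y => by
    rw [Real.dist_eq, ← mul_sub, abs_mul, abs_of_pos (inv_pos.2 hp), inv_mul_le_iff₀ hp]
    simpa using hf x y) (by simp [h0])
  refine ⟨C • φ, ?_, fun x => ?_⟩
  · rw [norm_smul, Real.norm_eq_abs, abs_of_pos hp]
    exact mul_le_of_le_one_right hp.le h1
  · rw [_root_.smul_apply, h2, smul_eq_mul, mul_inv_cancel_left₀ hp.ne']

theorem IsFree.norm_le (h : IsFree o δ) (φ : StrongDual ℝ X) {C : ℝ} (hC : 0 ≤ C)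
    (hf : ∀ x y, |φ (δ x) - φ (δ y)| ≤ C * dist x y) : ‖φ‖ ≤ C := by
  obtain ⟨ψ, h1, h2⟩ := h.extend' (fun x => φ (δ x)) hC hf (by simp [h.base])
  have : φ = ψ := ContinuousLinearMap.ext_on h.dense (by
    rintro _ ⟨x, rfl⟩
    exact (h2 x).symm)
  rwa [this]

/-- logarithmic cutoff -/
noncomputable def cut (R K t : ℝ) : ℝ := max 0 (1 - (Real.log (max t R) - Real.log R) / K)

theorem cut_nonneg (R K t : ℝ) : 0 ≤ cut R K t := le_max_left _ _

theorem cut_le_one {R K : ℝ} (hR : 0 < R) (hK : 0 < K) (t : ℝ) : cut R K t ≤ 1 := by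
  refine max_le zero_le_one ?_
  have := Real.log_le_log hR (le_max_right t R)
  have : 0 ≤ (Real.log (max t R) - Real.log R) / K := div_nonneg (by linarith) hK.le
  linarith

theorem cut_of_le {R K t : ℝ} (h : t ≤ R) : cut R K t = 1 := by
  simp [cut, max_eq_right h]

theorem cut_of_ge {R K t : ℝ} (hR : 0 < R) (hK : 0 < K) (h : R * Real.exp K ≤ t) :
    cut R K t = 0 := by
  refine max_eq_left ?_
  have h1 := Real.log_le_log (by positivity) (h.trans (le_max_left t R))
  rw [Real.log_mul hR.ne' (Real.exp_pos K).ne', Real.log_exp] at h1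
  rw [sub_nonpos, le_div_iff₀ hK]
  linarith

theorem cut_lip {R K s t : ℝ} (hR : 0 < R) (hK : 0 < K) (hs : 0 ≤ s) (hst : s ≤ t) :
    |cut R K t - cut R K s| * s ≤ (t - s) / K := by
  have ha : 0 < max s R := lt_max_of_lt_right hR
  have hb : max s R ≤ max t R := max_le_max_right R hst
  have h1 : |cut R K t - cut R K s| ≤ (Real.log (max t R) - Real.log (max s R)) / K := by
    unfold cut
    rw [max_comm 0, max_comm 0]
    refine (abs_max_sub_max_le_abs _ _ _).trans (le_of_eq ?_)
    have := Real.log_le_log ha hb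
    rw [abs_of_nonpos]
    · ring
    · have : 0 ≤ (Real.log (max t R) - Real.log (max s R)) / K := div_nonneg (by linarith) hK.le
      have e : 1 - (Real.log (max t R) - Real.log R) / K -
          (1 - (Real.log (max s R) - Real.log R) / K) =
          -((Real.log (max t R) - Real.log (max s R)) / K) := by ring
      rw [e]
      linarith
  have h2 : Real.log (max t R) - Real.log (max s R) ≤ (max t R - max s R) / max s R := by
    rw [← Real.log_div (ha.trans_le hb).ne' ha.ne', sub_div, div_self ha.ne']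
    exact Real.log_le_sub_one_of_pos (div_pos (ha.trans_le hb) ha)
  have h3 : max t R - max s R ≤ t - s := by
    have := abs_max_sub_max_le_abs t s R
    rw [abs_of_nonneg (by linarith : 0 ≤ t - s)] at this
    exact (le_abs_self _).trans this
  have h4 : (Real.log (max t R) - Real.log (max s R)) * s ≤ t - s := by
    calc (Real.log (max t R) - Real.log (max s R)) * s ≤ (max t R - max s R) / max s R * s :=
          mul_le_mul_of_nonneg_right h2 hs
      _ ≤ (max t R - max s R) / max s R * max s R :=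
          mul_le_mul_of_nonneg_left (le_max_left _ _) (div_nonneg (by linarith) ha.le)
      _ = max t R - max s R := div_mul_cancel₀ _ ha.ne'
      _ ≤ t - s := h3
  calc |cut R K t - cut R K s| * s ≤ (Real.log (max t R) - Real.log (max s R)) / K * s :=
        mul_le_mul_of_nonneg_right h1 hs
    _ = (Real.log (max t R) - Real.log (max s R)) * s / K := by ring
    _ ≤ (t - s) / K := div_le_div_of_nonneg_right h4 hK.le

theorem IsFree.cut_mul (h : IsFree o δ) {R K : ℝ} (hR : 0 < R) (hK : 0 < K) (g : StrongDual ℝ X)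
    (x y : M) : |cut R K (dist x o) * g (δ x) - cut R K (dist y o) * g (δ y)| ≤
      (1 + 1 / K) * ‖g‖ * dist x y := by
  wlog hxy : dist y o ≤ dist x o generalizing x y
  · rw [abs_sub_comm, dist_comm x y]
    exact this y x (le_of_not_ge hxy)
  have h1 : |g (δ x) - g (δ y)| ≤ ‖g‖ * dist x y := by
    rw [← map_sub, ← h.norm_sub]
    exact g.le_opNorm _
  have h2 : |g (δ y)| ≤ ‖g‖ * dist y o := by
    rw [← h.norm_pt]
    exact g.le_opNorm _
  have h3 := cut_lip hR hK dist_nonneg hxy
  have h4 : dist x o - dist y o ≤ dist x y := by linarith [dist_triangle x y o]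
  have e : cut R K (dist x o) * g (δ x) - cut R K (dist y o) * g (δ y) =
      cut R K (dist x o) * (g (δ x) - g (δ y)) +
        (cut R K (dist x o) - cut R K (dist y o)) * g (δ y) := by ring
  rw [e]
  refine (abs_add_le _ _).trans ?_
  rw [abs_mul, abs_mul, abs_of_nonneg (cut_nonneg _ _ _)]
  have h5 : cut R K (dist x o) * |g (δ x) - g (δ y)| ≤ ‖g‖ * dist x y :=
    (mul_le_of_le_one_left (abs_nonneg _) (cut_le_one hR hK _)).trans h1
  have h6 : |cut R K (dist x o) - cut R K (dist y o)| * |g (δ y)| ≤ ‖g‖ * (dist x y / K) := by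
    calc |cut R K (dist x o) - cut R K (dist y o)| * |g (δ y)|
        ≤ |cut R K (dist x o) - cut R K (dist y o)| * (‖g‖ * dist y o) :=
          mul_le_mul_of_nonneg_left h2 (abs_nonneg _)
      _ = ‖g‖ * (|cut R K (dist x o) - cut R K (dist y o)| * dist y o) := by ring
      _ ≤ ‖g‖ * (dist x y / K) := mul_le_mul_of_nonneg_left
          (h3.trans (div_le_div_of_nonneg_right h4 hK.le)) (norm_nonneg _)
  have e2 : (1 + 1 / K) * ‖g‖ * dist x y = ‖g‖ * dist x y + ‖g‖ * (dist x y / K) := by ring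
  linarith

theorem lip_of_bdd {θ : ℝ} (hθ : 0 < θ) (hs : ∀ x y : M, x ≠ y → θ ≤ dist x y) {f : M → ℝ}
    (hf : ∀ x, |f x| ≤ 1) (x y : M) : |f x - f y| ≤ 2 / θ * dist x y := by
  rcases eq_or_ne x y with rfl | hxy
  · simp
  have h1 := abs_sub (f x) (f y)
  have h2 : 2 / θ * θ ≤ 2 / θ * dist x y := mul_le_mul_of_nonneg_left (hs x y hxy) (by positivity)
  rw [div_mul_cancel₀ _ hθ.ne'] at h2
  linarith [hf x, hf y]

/-- The coordinate system of the cutoff operator. -/
theorem IsFree.system (h : IsFree o δ) {θ : ℝ} (hθ : 0 < θ)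
    (hs : ∀ x y : M, x ≠ y → θ ≤ dist x y) {R K : ℝ} (hR : 0 < R) (hK : 0 < K) :
    ∃ (e : M → StrongDual ℝ X) (v : M → X) (C : ℝ), 0 ≤ C ∧
      (∀ (F : Finset M) (γ : X), ∑ i ∈ F, |e i γ| ≤ C * ‖γ‖) ∧ (∀ i, ‖v i‖ ≤ C) ∧
      (∀ (γ : X) (g : StrongDual ℝ X), |∑' i, e i γ * g (v i)| ≤ (1 + 1 / K) * ‖g‖ * ‖γ‖) ∧
      ∀ γ ∈ Submodule.span ℝ (δ '' Metric.closedBall o R), ∀ g : StrongDual ℝ X,
        ∑' i, e i γ * g (v i) = g γ := by
  classical
  set w : M → ℝ := fun x => if x = o then 0 else cut R K (dist x o) with hw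
  have hw1 : ∀ x, |w x| ≤ 1 := by
    intro x
    simp only [hw]
    split_ifs
    · simp
    · rw [abs_of_nonneg (cut_nonneg _ _ _)]
      exact cut_le_one hR hK _
  have h1 : ∀ m : M, ∃ φ : StrongDual ℝ X, ∀ x, φ (δ x) = if x = m then w m else 0 := by
    intro m
    obtain ⟨φ, -, hφ⟩ := h.extend' (fun x => if x = m then w m else 0) (C := 2 / θ)
      (by positivity) (lip_of_bdd hθ hs fun x => by
        split_ifs
        · exact hw1 m
        · simp) (by
        split_ifs with h0
        · simp [hw, ← h0]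
        · rfl)
    exact ⟨φ, hφ⟩
  choose e he using h1
  set C : ℝ := 2 / θ + R * Real.exp K with hC
  have hC0 : 0 ≤ C := by positivity
  set v : M → X := fun m => if dist m o ≤ R * Real.exp K then δ m else 0 with hv
  have h2 : ∀ (F : Finset M) (γ : X), ∑ i ∈ F, |e i γ| ≤ C * ‖γ‖ := by
    intro F γ
    set s : M → ℝ := fun i => if 0 ≤ e i γ then 1 else -1 with hs'
    have e1 : ∑ i ∈ F, |e i γ| = (∑ i ∈ F, s i • e i) γ := by
      rw [_root_.sum_apply]
      refine Finset.sum_congr rfl fun i _ => ?_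
      simp only [hs', _root_.smul_apply, smul_eq_mul]
      split_ifs with h0
      · rw [abs_of_nonneg h0, one_mul]
      · rw [abs_of_neg (not_le.1 h0), neg_one_mul]
    have e2 : ‖∑ i ∈ F, s i • e i‖ ≤ 2 / θ := by
      refine h.norm_le _ (by positivity) (lip_of_bdd hθ hs
        (f := fun x => (∑ i ∈ F, s i • e i) (δ x)) fun x => ?_)
      simp only [_root_.sum_apply, _root_.smul_apply, he, smul_eq_mul, mul_ite, mul_zero,
        Finset.sum_ite_eq]
      split_ifs
      · rw [abs_mul]
        refine mul_le_one₀ ?_ (abs_nonneg _) (hw1 x)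
        simp only [hs']
        split_ifs <;> simp
      · simp
    rw [e1]
    refine (le_abs_self _).trans (((∑ i ∈ F, s i • e i).le_opNorm γ).trans ?_)
    refine mul_le_mul_of_nonneg_right (e2.trans ?_) (norm_nonneg _)
    have : 0 ≤ R * Real.exp K := by positivity
    linarith
  have h3 : ∀ i, ‖v i‖ ≤ C := by
    intro i
    have : 0 ≤ 2 / θ := by positivity
    simp only [hv]
    split_ifs with h0
    · rw [h.norm_pt]
      linarith
    · simpa using hC0
  have hs0 : ∀ γ, Summable fun i => |e i γ| := fun γ =>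
    summable_of_sum_le (fun _ => abs_nonneg _) fun F => h2 F γ
  have hb : ∀ (γ : X) (g : StrongDual ℝ X) i, ‖e i γ * g (v i)‖ ≤ |e i γ| * (‖g‖ * C) := by
    intro γ g i
    rw [Real.norm_eq_abs, abs_mul]
    exact mul_le_mul_of_nonneg_left ((g.le_opNorm _).trans
      (mul_le_mul_of_nonneg_left (h3 i) (norm_nonneg _))) (abs_nonneg _)
  have hs1 : ∀ (γ : X) (g : StrongDual ℝ X), Summable fun i => e i γ * g (v i) := fun γ g =>
    Summable.of_norm_bounded ((hs0 γ).mul_right (‖g‖ * C)) (hb γ g)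
  have h4 : ∀ g : StrongDual ℝ X, ∃ Φ : StrongDual ℝ X, ∀ γ, Φ γ = ∑' i, e i γ * g (v i) := by
    intro g
    refine ⟨LinearMap.mkContinuous
      { toFun := fun γ => ∑' i, e i γ * g (v i)
        map_add' := fun a b => ?_
        map_smul' := fun c a => ?_ } (C * (‖g‖ * C)) fun γ => ?_, fun γ => rfl⟩
    · rw [← (hs1 a g).tsum_add (hs1 b g)]
      simp [add_mul]
    · simp [mul_assoc, tsum_mul_left]
    · refine (tsum_of_norm_bounded ((hs0 γ).mul_right (‖g‖ * C)).hasSum (hb γ g)).trans ?_
      rw [tsum_mul_right]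
      have := (hs0 γ).tsum_le_of_sum_le fun F => h2 F γ
      calc (∑' i, |e i γ|) * (‖g‖ * C) ≤ C * ‖γ‖ * (‖g‖ * C) :=
            mul_le_mul_of_nonneg_right this (by positivity)
        _ = C * (‖g‖ * C) * ‖γ‖ := by ring
  choose Φ hΦ using h4
  have h5 : ∀ (g : StrongDual ℝ X) x, Φ g (δ x) = cut R K (dist x o) * g (δ x) := by
    intro g x
    rw [hΦ, tsum_eq_single x (fun m hm => by rw [he, if_neg hm.symm, zero_mul]), he, if_pos rfl]
    simp only [hw, hv]
    by_cases h0 : x = o
    · simp [h0, h.base]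
    · rw [if_neg h0]
      split_ifs with h1
      · rfl
      · rw [cut_of_ge hR hK (le_of_not_ge h1), zero_mul, zero_mul]
  refine ⟨e, v, C, hC0, h2, h3, fun γ g => ?_, fun γ hγ g => ?_⟩
  · rw [← hΦ]
    refine ((Φ g).le_opNorm γ).trans (mul_le_mul_of_nonneg_right ?_ (norm_nonneg _))
    refine h.norm_le _ (by positivity) fun x y => ?_
    rw [h5, h5]
    exact h.cut_mul hR hK g x y
  · rw [← hΦ]
    induction hγ using Submodule.span_induction with
    | mem a ha =>
      obtain ⟨x, hx, rfl⟩ := ha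
      rw [h5, cut_of_le (Metric.mem_closedBall.1 hx), one_mul]
    | zero => simp
    | add a b _ _ ha hb => rw [map_add, map_add, ha, hb]
    | smul c a _ ha => rw [map_smul, map_smul, ha]

theorem eventually_mem_span {γ : X} (hγ : γ ∈ Submodule.span ℝ (Set.range δ)) :
    ∀ᶠ R : ℝ in atTop, γ ∈ Submodule.span ℝ (δ '' Metric.closedBall o R) := by
  induction hγ using Submodule.span_induction with
  | mem a ha =>
    obtain ⟨x, rfl⟩ := ha
    exact (eventually_ge_atTop (dist x o)).mono fun R hR =>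
      Submodule.subset_span ⟨x, Metric.mem_closedBall.2 hR, rfl⟩
  | zero => exact Eventually.of_forall fun _ => Submodule.zero_mem _
  | add a b _ _ ha hb => exact (ha.and hb).mono fun R hR => Submodule.add_mem _ hR.1 hR.2
  | smul c a _ ha => exact ha.mono fun R hR => Submodule.smul_mem _ c hR

/-- Approximate linear retractions of the bidual give the bounded approximation property. -/
theorem IsFree.bap_of_alr [Countable M] (h : IsFree o δ) {θ : ℝ} (hθ : 0 < θ)
    (hs : ∀ x y : M, x ≠ y → θ ≤ dist x y) {L : ℝ} (hL : 0 < L)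
    (hA : ∀ z, ALRat (X := X) (Y := StrongDual ℝ (StrongDual ℝ X))
      (NormedSpace.inclusionInDoubleDual ℝ X) L z) : BAP L X := by
  refine bap_of_trace hL h.dense fun A hA' f c hc hT => ?_
  obtain ⟨R, hR1, hR⟩ := (((eventually_all_finset A).2 fun a ha =>
    eventually_mem_span (o := o) (hA' a ha)).and (eventually_gt_atTop 0)).exists
  refine le_of_small (K := L * c) fun t ht => ?_
  obtain ⟨e, v, C, hC, h1, h2, h3, h4⟩ := h.system hθ hs hR (inv_pos.2 ht)
  have := trace_bound hL.le hA e v hC (by positivity) h1 h2 h3 f (fun a : A => (a : X))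
    (fun a g => h4 a (hR1 a a.2) g) hc hT
  rw [one_div, inv_inv] at this
  linarith

theorem IsFree.bap_of_bidual [Countable M] (h : IsFree o δ) {θ : ℝ} (hθ : 0 < θ)
    (hs : ∀ x y : M, x ≠ y → θ ≤ dist x y) {L : ℝ≥0} (hL : 0 < L) (hR : BidualRetract L X) :
    BAP L X := by
  have := h.complete
  obtain ⟨R, h1, h2⟩ := hR
  exact h.bap_of_alr hθ hs hL fun z => alrAt_of_retract (X := X)
    (Y := StrongDual ℝ (StrongDual ℝ X)) (NormedSpace.inclusionInDoubleDual ℝ X) ⊤
    (fun _ => trivial) h1 h2 fun _ => trivial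

theorem ALRat.mono {Y : Type} [NormedAddCommGroup Y] [NormedSpace ℝ Y] {ι : X →L[ℝ] Y} {L L' : ℝ}
    {z : ℕ → Y} (h : ALRat ι L z) (hL : L ≤ L') : ALRat ι L' z := by
  intro A ε hε
  obtain ⟨G, T, g1, g2, g3, g4⟩ := h A ε hε
  exact ⟨G, T, g1, g2, fun v hv => (g3 v hv).trans
    (mul_le_mul_of_nonneg_right hL (norm_nonneg _)), g4⟩

theorem exists_separable_aux [CompleteSpace X] [TopologicalSpace.SeparableSpace X] {Y : Type}
    [NormedAddCommGroup Y] [NormedSpace ℝ Y] (ι : X →L[ℝ] Y)
    (h : ∀ n : ℕ, ∃ z, ¬ ALRat ι ((n : ℝ) + 1) z) :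
    ∃ W : Submodule ℝ Y, IsClosed (W : Set Y) ∧ TopologicalSpace.IsSeparable (W : Set Y) ∧
      (∀ x, ι x ∈ W) ∧ ∀ (L : ℝ≥0) (R : Y → X), LipschitzOnWith L R W → ¬ ∀ x, R (ι x) = x := by
  choose z hz using h
  refine ⟨(Submodule.span ℝ (Set.range ι ∪ Set.range fun p : ℕ × ℕ => z p.1 p.2)).topologicalClosure,
    Submodule.isClosed_topologicalClosure _, ?_, fun x => ?_, fun L R hR hι => ?_⟩
  · exact ((TopologicalSpace.isSeparable_range ι.continuous).union
      (Set.countable_range _).isSeparable).span.closure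
  · exact Submodule.le_topologicalClosure _ (Submodule.subset_span (Or.inl ⟨x, rfl⟩))
  · obtain ⟨n, hn⟩ := exists_nat_ge (L : ℝ)
    refine hz n ((alrAt_of_retract ι _ (fun x => ?_) hR hι fun k => ?_).mono (by linarith))
    · exact Submodule.le_topologicalClosure _ (Submodule.subset_span (Or.inl ⟨x, rfl⟩))
    · exact Submodule.le_topologicalClosure _ (Submodule.subset_span (Or.inr ⟨(n, k), rfl⟩))

theorem IsFree.separable [Countable M] (h : IsFree o δ) : TopologicalSpace.SeparableSpace X := by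
  have := ((Set.countable_range δ).isSeparable.span (R := ℝ)).closure
  rw [h.dense.closure_eq] at this
  exact TopologicalSpace.isSeparable_univ_iff.1 this

end Vale.Agent.N090R
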