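import Vale.Agent.N090R.Trace

/-! Local reflexivity for finitely many inequalities, and extension of Lipschitz maps with values
in a dual space from `X` to `X**`. -/

set_option linter.unusedSectionVars false

namespace Vale.Agent.N090R

open Filter Topology
open scoped NNReal

variable {X : Type} [NormedAddCommGroup X] [NormedSpace ℝ X]

theorem exists_point (φ : StrongDual ℝ X) {r ε : ℝ} (hr : 0 ≤ r) (hε : 0 < ε) :
    ∃ p : X, ‖p‖ < r + ε ∧ r * ‖φ‖ ≤ φ p := by
  rcases eq_or_ne φ 0 with rfl | h0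
  · exact ⟨0, by simpa using (by positivity : 0 < r + ε), by simp⟩
  have hp : 0 < ‖φ‖ := norm_pos_iff.2 h0
  have hs : 0 < r + ε / 2 := by positivity
  obtain ⟨a, ha, h⟩ := exists_almost_norming φ (δ := ε / 2 * ‖φ‖ / (r + ε / 2)) (by positivity)
  refine ⟨(r + ε / 2) • a, ?_, ?_⟩
  · rw [norm_smul, Real.norm_eq_abs, abs_of_pos hs]
    nlinarith
  · rw [map_smul, smul_eq_mul]
    have := mul_le_mul_of_nonneg_left h hs.le
    rw [mul_sub, mul_div_cancel₀ _ hs.ne'] at this
    linarith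

/-- Finitely many norm inequalities which can be solved in `X**` can almost be solved in `X`. -/
theorem helly {ι τ : Type} [Fintype ι] [Fintype τ] (c : τ → ι → ℝ)
    (y : ι → StrongDual ℝ (StrongDual ℝ X)) (t : τ → X) {ε : ℝ} (hε : 0 < ε) :
    ∃ a : ι → X, ∀ k, ‖∑ i, c k i • a i - t k‖ <
      ‖∑ i, c k i • y i - NormedSpace.inclusionInDoubleDual ℝ X (t k)‖ + ε := by
  classical
  set r : τ → ℝ := fun k => ‖∑ i, c k i • y i - NormedSpace.inclusionInDoubleDual ℝ X (t k)‖
    with hr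
  let Θ : (ι → X) →ₗ[ℝ] (τ → X) :=
    { toFun := fun a k => ∑ i, c k i • a i
      map_add' := fun a b => funext fun k => by simp [Finset.sum_add_distrib]
      map_smul' := fun s a => funext fun k => by
        simp [Finset.smul_sum, smul_smul, mul_comm] }
  by_contra hn
  have hd : Disjoint (Set.pi Set.univ fun k => Metric.ball (t k) (r k + ε))
      (LinearMap.range Θ : Set (τ → X)) := by
    rw [Set.disjoint_left]
    rintro _ h1 ⟨a, rfl⟩
    refine hn ⟨a, fun k => ?_⟩
    have := h1 k (Set.mem_univ k)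
    rwa [Metric.mem_ball, dist_eq_norm] at this
  obtain ⟨φ, u, h1, h2⟩ := geometric_hahn_banach_open
    (convex_pi fun k _ => convex_ball _ _)
    (isOpen_set_pi Set.finite_univ fun k _ => Metric.isOpen_ball) (LinearMap.range Θ).convex hd
  have hu : u ≤ 0 := by simpa using h2 0 (LinearMap.range Θ).zero_mem
  have h3 : ∀ a, φ (Θ a) = 0 := by
    intro a
    by_contra h0
    have := h2 (((u - 1) / φ (Θ a)) • Θ a) ((LinearMap.range Θ).smul_mem _ ⟨a, rfl⟩)
    rw [map_smul, smul_eq_mul, div_mul_cancel₀ _ h0] at this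
    linarith
  let f : τ → StrongDual ℝ X := fun k => φ.comp (ContinuousLinearMap.single ℝ (fun _ : τ => X) k)
  have hφ : ∀ w : τ → X, φ w = ∑ k, f k (w k) := by
    intro w
    conv_lhs => rw [← Finset.univ_sum_single w]
    rw [map_sum]
    rfl
  have h4 : ∀ i, ∑ k, c k i • f k = 0 := by
    intro i
    ext a
    have := h3 (Pi.single i a)
    rw [hφ] at this
    rw [_root_.sum_apply, _root_.zero_apply, ← this]
    refine Finset.sum_congr rfl fun k _ => ?_
    have e : Θ (Pi.single i a) k = c k i • a := by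
      change ∑ i', c k i' • (Pi.single i a : ι → X) i' = _
      rw [Finset.sum_eq_single i]
      · simp
      · intro b _ hb
        simp [Pi.single_eq_of_ne hb]
      · simp
    rw [e]
    simp
  have h5 : ∑ k, (∑ i, c k i • y i) (f k) = 0 := by
    simp only [_root_.sum_apply, _root_.smul_apply]
    rw [Finset.sum_comm]
    refine Finset.sum_eq_zero fun i _ => ?_
    have := congrArg (y i) (h4 i)
    rw [map_sum, map_zero] at this
    simpa using this
  have h6 : ∀ k, (∑ i, c k i • y i) (f k) - f k (t k) ≤ r k * ‖f k‖ := by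
    intro k
    have := (∑ i, c k i • y i - NormedSpace.inclusionInDoubleDual ℝ X (t k)).le_opNorm (f k)
    rw [_root_.sub_apply, NormedSpace.dual_def] at this
    exact (le_abs_self _).trans this
  choose p hp1 hp2 using fun k => exists_point (f k) (r := r k)
    (ContinuousLinearMap.opNorm_nonneg _) hε
  have h7 := h1 (t + p) fun k _ => by
    rw [Metric.mem_ball, dist_eq_norm, Pi.add_apply, add_sub_cancel_left]
    exact hp1 k
  rw [hφ] at h7
  simp only [Pi.add_apply, map_add] at h7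
  have h8 : ∑ k, (∑ i, c k i • y i) (f k) ≤ ∑ k, (f k (t k) + f k (p k)) :=
    Finset.sum_le_sum fun k _ => by linarith [h6 k, hp2 k]
  linarith

theorem metric_local_aux {W : Type} [NormedAddCommGroup W] [NormedSpace ℝ W] (κ : X →L[ℝ] W)
    (hiso : ∀ x, ‖κ x‖ = ‖x‖) (hinj : Function.Injective κ) (F : Finset W) {ε : ℝ}
    (hel : ∀ (c : F × Option F → F → ℝ) (y : F → W) (t : F × Option F → X),
      ∃ a : F → X, ∀ k, ‖∑ i, c k i • a i - t k‖ < ‖∑ i, c k i • y i - κ (t k)‖ + ε) :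
    ∃ a : W → X, (∀ y ∈ F, ∀ y' ∈ F, ‖a y - a y'‖ ≤ ‖y - y'‖ + ε) ∧
      (∀ y ∈ F, ‖a y‖ ≤ 2 * ‖y‖ + ε) ∧ ∀ x, κ x ∈ F → ‖a (κ x) - x‖ ≤ ε := by
  classical
  let tt : F → X := fun y => if h : ∃ x, κ x = y then h.choose else 0
  let c : F × Option F → F → ℝ := fun k i =>
    (if i = k.1 then 1 else 0) - if some i = k.2 then 1 else 0
  obtain ⟨a, ha⟩ := hel c (fun i : F => i.1) (fun k => if k.2 = none then tt k.1 else 0)
  have s1 : ∀ {V : Type} [AddCommGroup V] [Module ℝ V] (b : F → V) (y y' : F),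
      ∑ i, c (y, some y') i • b i = b y - b y' := by
    intro V _ _ b y y'
    simp [c, sub_smul, Finset.sum_sub_distrib, ite_smul]
  have s2 : ∀ {V : Type} [AddCommGroup V] [Module ℝ V] (b : F → V) (y : F),
      ∑ i, c (y, none) i • b i = b y := by
    intro V _ _ b y
    simp [c, ite_smul]
  have p1 : ∀ y y' : F, ‖a y - a y'‖ ≤ ‖y.1 - y'.1‖ + ε := by
    intro y y'
    have := ha (y, some y')
    rw [s1, s1] at this
    simpa using this.le
  have p2 : ∀ y : F, ‖a y - tt y‖ ≤ ‖y.1 - κ (tt y)‖ + ε := by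
    intro y
    have := ha (y, none)
    rw [s2, s2] at this
    simpa using this.le
  refine ⟨fun y => if h : y ∈ F then a ⟨y, h⟩ else 0, fun y hy y' hy' => ?_, fun y hy => ?_,
    fun x hx => ?_⟩
  · simp only [dif_pos hy, dif_pos hy']
    exact p1 ⟨y, hy⟩ ⟨y', hy'⟩
  · simp only [dif_pos hy]
    have := p2 ⟨y, hy⟩
    by_cases h : ∃ x, κ x = y
    · have e : κ (tt ⟨y, hy⟩) = y := by
        simp only [tt, dif_pos h]
        exact h.choose_spec
      rw [e, sub_self, norm_zero] at this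
      have e2 := hiso (tt ⟨y, hy⟩)
      rw [e] at e2
      have e3 := norm_le_insert' (a ⟨y, hy⟩) (tt ⟨y, hy⟩)
      linarith [norm_nonneg y]
    · have e : tt ⟨y, hy⟩ = 0 := by simp only [tt, dif_neg h]
      rw [e, map_zero, sub_zero, sub_zero] at this
      change ‖a ⟨y, hy⟩‖ ≤ ‖y‖ + ε at this
      linarith [norm_nonneg y]
  · simp only [dif_pos hx]
    have h : ∃ x', κ x' = κ x := ⟨x, rfl⟩
    have e : tt ⟨κ x, hx⟩ = x := by
      simp only [tt, dif_pos h]
      exact hinj h.choose_spec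
    have := p2 ⟨κ x, hx⟩
    rw [e, sub_self, norm_zero, zero_add] at this
    exact this

/-- Metric local reflexivity. -/
theorem metric_local (F : Finset (StrongDual ℝ (StrongDual ℝ X))) {ε : ℝ} (hε : 0 < ε) :
    ∃ a : StrongDual ℝ (StrongDual ℝ X) → X,
      (∀ y ∈ F, ∀ y' ∈ F, ‖a y - a y'‖ ≤ ‖y - y'‖ + ε) ∧ (∀ y ∈ F, ‖a y‖ ≤ 2 * ‖y‖ + ε) ∧
      ∀ x, NormedSpace.inclusionInDoubleDual ℝ X x ∈ F →
        ‖a (NormedSpace.inclusionInDoubleDual ℝ X x) - x‖ ≤ ε := by
  have h1 : ∀ x : X, ‖NormedSpace.inclusionInDoubleDual ℝ X x‖ = ‖x‖ := fun x =>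
    (NormedSpace.inclusionInDoubleDualLi ℝ).norm_map x
  have h2 : Function.Injective (NormedSpace.inclusionInDoubleDual ℝ X) :=
    (NormedSpace.inclusionInDoubleDualLi (E := X) ℝ).injective
  refine metric_local_aux (X := X) (W := StrongDual ℝ (StrongDual ℝ X))
    (NormedSpace.inclusionInDoubleDual ℝ X) h1 h2 F (ε := ε) fun c y t => ?_
  obtain ⟨a, ha⟩ := helly c y t hε
  exact ⟨a, ha⟩

/-- A Lipschitz map from `X` into a dual space extends to `X**` with the same constant. -/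
theorem extend_to_bidual {Z : Type} [NormedAddCommGroup Z] [NormedSpace ℝ Z] {K : ℝ≥0}
    {j : X → StrongDual ℝ Z} (hj : LipschitzWith K j) :
    ∃ J : StrongDual ℝ (StrongDual ℝ X) → StrongDual ℝ Z, LipschitzWith K J ∧
      ∀ x, J (NormedSpace.inclusionInDoubleDual ℝ X x) = j x := by
  classical
  set κ := NormedSpace.inclusionInDoubleDual ℝ X with hκ
  have hpos : ∀ n : ℕ, (0 : ℝ) < 1 / ((n : ℝ) + 1) := fun n => by positivity
  choose a a1 a2 a3 using fun p : Finset (StrongDual ℝ (StrongDual ℝ X)) × ℕ =>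
    metric_local p.1 (hpos p.2)
  let U : Ultrafilter (Finset (StrongDual ℝ (StrongDual ℝ X)) × ℕ) := Ultrafilter.of atTop
  have hU : (U : Filter (Finset (StrongDual ℝ (StrongDual ℝ X)) × ℕ)) ≤ atTop :=
    Ultrafilter.of_le _
  have hmem : ∀ y, ∀ᶠ p in (U : Filter (Finset (StrongDual ℝ (StrongDual ℝ X)) × ℕ)), y ∈ p.1 :=
    fun y => hU ((eventually_ge_atTop ({y}, 0)).mono fun p hp => hp.1 (Finset.mem_singleton_self y))
  have hε : Tendsto (fun p : Finset (StrongDual ℝ (StrongDual ℝ X)) × ℕ => 1 / ((p.2 : ℝ) + 1))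
      U (𝓝 0) := by
    refine (tendsto_one_div_add_atTop_nhds_zero_nat.comp ?_).mono_left hU
    rw [← prod_atTop_atTop_eq]
    exact tendsto_snd
  have hd : ∀ (b b' : X) (z : Z), |j b z - j b' z| ≤ K * ‖b - b'‖ * ‖z‖ := by
    intro b b' z
    have h1 := (j b - j b').le_opNorm z
    have h2 := hj.dist_le_mul b b'
    rw [dist_eq_norm, dist_eq_norm] at h2
    exact h1.trans (mul_le_mul_of_nonneg_right h2 (norm_nonneg _))
  have hb : ∀ y z, ∀ᶠ p in (U : Filter (Finset (StrongDual ℝ (StrongDual ℝ X)) × ℕ)),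
      |j (a p y) z| ≤ (‖j 0‖ + K * (2 * ‖y‖ + 1)) * ‖z‖ := by
    intro y z
    refine (hmem y).mono fun p hp => ?_
    have h1 := hd (a p y) 0 z
    have h2 := a2 p y hp
    have h3 : 1 / ((p.2 : ℝ) + 1) ≤ 1 := by
      rw [div_le_one (by positivity)]
      linarith [(Nat.cast_nonneg p.2 : (0 : ℝ) ≤ p.2)]
    have h4 : |j 0 z| ≤ ‖j 0‖ * ‖z‖ := (j 0).le_opNorm z
    rw [sub_zero] at h1
    have h5 : (K : ℝ) * ‖a p y‖ * ‖z‖ ≤ K * (2 * ‖y‖ + 1) * ‖z‖ := by
      gcongr
      linarith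
    have h6 := abs_sub_abs_le_abs_sub (j (a p y) z) (j 0 z)
    linarith
  have hl : ∀ y z, ∃ l : ℝ, Tendsto (fun p => j (a p y) z) U (𝓝 l) := by
    intro y z
    obtain ⟨l, -, hl⟩ := (isCompact_Icc (a := -((‖j 0‖ + K * (2 * ‖y‖ + 1)) * ‖z‖))
      (b := (‖j 0‖ + K * (2 * ‖y‖ + 1)) * ‖z‖)).ultrafilter_le_nhds
      (U.map fun p => j (a p y) z) (by
        rw [le_principal_iff]
        exact (hb y z).mono fun p hp => abs_le.1 hp)
    exact ⟨l, hl⟩
  choose l hl using hl
  let J : StrongDual ℝ (StrongDual ℝ X) → StrongDual ℝ Z := fun y => LinearMap.mkContinuous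
    { toFun := l y
      map_add' := fun z z' => tendsto_nhds_unique (hl y (z + z'))
        (((hl y z).add (hl y z')).congr fun p => (map_add _ _ _).symm)
      map_smul' := fun s z => tendsto_nhds_unique (hl y (s • z))
        (((hl y z).const_mul s).congr fun p => (map_smul (j (a p y)) s z).symm) }
    (‖j 0‖ + K * (2 * ‖y‖ + 1)) fun z => le_of_tendsto (hl y z).abs (hb y z)
  refine ⟨J, LipschitzWith.of_dist_le_mul fun y y' => ?_, fun x => ?_⟩
  · rw [dist_eq_norm, dist_eq_norm]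
    refine ContinuousLinearMap.opNorm_le_bound _ (by positivity) fun z => ?_
    change |l y z - l y' z| ≤ _
    have t1 : Tendsto (fun p : Finset (StrongDual ℝ (StrongDual ℝ X)) × ℕ =>
        (K : ℝ) * (‖y - y'‖ + 1 / ((p.2 : ℝ) + 1)) * ‖z‖) U (𝓝 (K * (‖y - y'‖ + 0) * ‖z‖)) :=
      ((hε.const_add _).const_mul _).mul_const _
    rw [add_zero] at t1
    refine le_of_tendsto_of_tendsto ((hl y z).sub (hl y' z)).abs t1 ?_
    filter_upwards [hmem y, hmem y'] with p h1 h2
    refine (hd _ _ z).trans ?_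
    gcongr
    exact a1 p y h1 y' h2
  · ext z
    change l (κ x) z = j x z
    refine tendsto_nhds_unique (hl (κ x) z) ?_
    rw [tendsto_iff_norm_sub_tendsto_zero]
    have t1 : Tendsto (fun p : Finset (StrongDual ℝ (StrongDual ℝ X)) × ℕ =>
        (K : ℝ) * (1 / ((p.2 : ℝ) + 1)) * ‖z‖) U (𝓝 (K * 0 * ‖z‖)) :=
      (hε.const_mul _).mul_const _
    rw [mul_zero, zero_mul] at t1
    refine squeeze_zero' (Eventually.of_forall fun _ => norm_nonneg _) ?_ t1
    filter_upwards [hmem (κ x)] with p h1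
    refine (hd _ _ z).trans ?_
    gcongr
    exact a3 p x h1

theorem DualFactor.bidual {K L : ℝ≥0} (h : DualFactor K L X) : BidualRetract (L * K) X := by
  obtain ⟨Z, _, _, j, hj, R, hR, hx⟩ := h
  obtain ⟨J, hJ, hJx⟩ := extend_to_bidual hj
  refine ⟨R ∘ J, ((lipschitzOnWith_univ.1 hR).comp hJ).lipschitzOnWith, fun x => ?_⟩
  rw [Function.comp_apply, can, hJx, hx]

end Vale.Agent.N090R
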