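import Vale.Agent.N090R.Free
import Vale.Agent.P090.H117.Func
import Vale.Agent.P090.H29.Bounded

/-! The counterexample to Kalton's question is not a Lipschitz retract of its bidual. -/

namespace Vale.Agent.N090R

open scoped NNReal
open Vale.Agent.P090

set_option maxSynthPendingDepth 3

variable {M X : Type} [MetricSpace M] [NormedAddCommGroup X] [NormedSpace ℝ X] {o : M} {δ : M → X}

theorem IsFree.isLipFree (h : IsFree o δ) : H117.IsLipFree o X δ where
  complete := h.complete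
  dense := h.dense
  norm := by
    intro a
    have hval : ∀ φ : StrongDual ℝ X,
        φ (a.sum fun x c => c • δ x) = a.sum fun x c => c * φ (δ x) := by
      intro φ
      rw [Finsupp.sum, Finsupp.sum, map_sum]
      simp only [map_smul, smul_eq_mul]
    symm
    refine IsGreatest.csSup_eq ⟨?_, ?_⟩
    · obtain ⟨φ, h1, h2⟩ := exists_dual_vector'' ℝ (a.sum fun x c => c • δ x)
      refine ⟨fun x => φ (δ x), LipschitzWith.of_dist_le_mul fun x y => ?_, by simp [h.base], ?_⟩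
      · rw [Real.dist_eq, ← map_sub, ← h.norm_sub]
        exact (φ.le_opNorm _).trans (mul_le_mul_of_nonneg_right h1 (norm_nonneg _))
      · rw [← hval, h2]
        rfl
    · rintro s ⟨f, hf, hf0, rfl⟩
      obtain ⟨φ, h1, h2⟩ := h.extend f hf hf0
      simp only [← h2]
      rw [← hval]
      exact (le_abs_self _).trans ((φ.le_opNorm _).trans
        (mul_le_of_le_one_left (norm_nonneg _) h1))

theorem extend_lipSpan (f : M → ℝ) (hf : LipschitzWith 1 f) (h0 : f o = 0) :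
    ∃ φ : StrongDual ℝ ↥(LipSpan M o), ‖φ‖ ≤ 1 ∧ ∀ x, φ (deltaF o x) = f x := by
  set g : Lip0 M o := ⟨f, h0, 1, hf⟩ with hg
  have h1 : ‖g‖ ≤ 1 := Lip0.norm_le zero_le_one fun x y => by
    have := hf.dist_le_mul x y
    rwa [Real.dist_eq] at this
  refine ⟨LinearMap.mkContinuous
    { toFun := fun u => (u : Lip0 M o →L[ℝ] ℝ) g
      map_add' := fun _ _ => rfl
      map_smul' := fun _ _ => rfl } 1 fun u => ?_,
    LinearMap.mkContinuous_norm_le _ zero_le_one _, fun x => rfl⟩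
  rw [one_mul]
  exact ((u : Lip0 M o →L[ℝ] ℝ).le_opNorm g).trans (mul_le_of_le_one_right (norm_nonneg _) h1)

theorem isFree_lipSpan : IsFree o (deltaF o : M → ↥(LipSpan M o)) where
  complete := H117.isLipFree_lipSpan.complete
  isometry := by
    refine Isometry.of_dist_eq fun x y => ?_
    rw [dist_eq_norm]
    refine le_antisymm (norm_deltaF_sub_le x y) ?_
    obtain ⟨φ, h1, h2⟩ := extend_lipSpan (o := o) (fun z => dist z y - dist o y)
      (LipschitzWith.of_dist_le_mul fun a b => by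
        rw [Real.dist_eq, sub_sub_sub_cancel_right]
        simpa using abs_dist_sub_le a b y) (sub_self _)
    have h3 : φ (deltaF o x - deltaF o y) = dist x y := by
      rw [map_sub, h2, h2, dist_self]
      ring
    rw [← h3]
    exact (le_abs_self _).trans ((φ.le_opNorm _).trans (mul_le_of_le_one_left (norm_nonneg _) h1))
  base := H117.deltaF_base
  dense := H117.isLipFree_lipSpan.dense
  extend := extend_lipSpan

theorem exists_isFree (M : Type) [MetricSpace M] (o : M) :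
    ∃ (X : Type) (_ : NormedAddCommGroup X) (_ : NormedSpace ℝ X) (δ : M → X), IsFree o δ :=
  ⟨_, _, _, _, isFree_lipSpan⟩

/-- the counterexample fails the bounded approximation property for every base point -/
theorem not_bap_MM {X : Type} [NormedAddCommGroup X] [NormedSpace ℝ X] {o : MM} {δ : MM → X}
    (h : IsFree o δ) (lam : ℝ) : ¬ BAP lam X := fun hB =>
  (H117.fails_MM.coarse id 1 zero_le_one (fun _ _ => by simp) id 1 zero_le_one
    (fun _ _ => by simp) 0 (fun _ => by simp) o).not_hasCompactBAP h.isLipFree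
    (H117.HasBAP.compact ⟨lam, hB⟩)

theorem BAP.transfer {Y : Type} [NormedAddCommGroup Y] [NormedSpace ℝ Y] {δ' : M → Y} {lam : ℝ}
    (h : IsFree o δ) (h' : IsFree o δ') (hB : BAP lam X) : BAP lam Y := by
  obtain ⟨Φ, hΦ, hΦδ⟩ := h.isLipFree.exists_map h'.isLipFree
  obtain ⟨Ψ, hΨ, hΨδ⟩ := h'.isLipFree.exists_map h.isLipFree
  have hid : Φ.comp Ψ = ContinuousLinearMap.id ℝ Y := ContinuousLinearMap.ext_on h'.dense (by
    rintro _ ⟨x, rfl⟩
    simp [hΦδ, hΨδ])
  intro K hK ε hε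
  obtain ⟨T, hT, hn, hc⟩ := hB (Ψ '' K) (hK.image Ψ.continuous) ε hε
  have hlam : 0 ≤ lam := (norm_nonneg T).trans hn
  refine ⟨Φ.comp (T.comp Ψ), ?_, ?_, fun u hu => ?_⟩
  · have h1 : LinearMap.range ((Φ.comp (T.comp Ψ) : Y →L[ℝ] Y) : Y →ₗ[ℝ] Y) ≤
        (LinearMap.range (T : X →ₗ[ℝ] X)).map (Φ : X →ₗ[ℝ] Y) := by
      rintro _ ⟨y, rfl⟩
      exact ⟨T (Ψ y), ⟨Ψ y, rfl⟩, rfl⟩
    exact Submodule.finiteDimensional_of_le h1
  · refine (Φ.opNorm_comp_le _).trans ?_
    have h1 : ‖T.comp Ψ‖ ≤ lam * 1 :=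
      (T.opNorm_comp_le _).trans (mul_le_mul hn hΨ (norm_nonneg _) hlam)
    calc ‖Φ‖ * ‖T.comp Ψ‖ ≤ 1 * (lam * 1) := mul_le_mul hΦ h1 (norm_nonneg _) zero_le_one
      _ = lam := by ring
  · have e : Φ (Ψ u) = u := by simpa using congrArg (fun S : Y →L[ℝ] Y => S u) hid
    have e1 : (Φ.comp (T.comp Ψ)) u - u = Φ (T (Ψ u) - Ψ u) := by
      rw [map_sub, e]
      rfl
    rw [e1]
    exact ((Φ.le_opNorm _).trans (mul_le_of_le_one_left (norm_nonneg _) hΦ)).trans_lt
      (hc _ ⟨u, hu, rfl⟩)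

/-- A Lipschitz retraction of the bidual gives the bounded approximation property. -/
theorem IsFree.bap_of_retract [Countable M] (h : IsFree o δ)
    (hs : ∃ θ : ℝ, 0 < θ ∧ ∀ x y : M, x ≠ y → θ ≤ dist x y) {L : ℝ≥0} (hR : BidualRetract L X) :
    BAP L X := by
  obtain ⟨θ, hθ, hs⟩ := hs
  rcases (zero_le (a := L)).eq_or_lt with rfl | hL
  · obtain ⟨R, h1, h2⟩ := hR
    intro K _ ε hε
    refine ⟨0, ?_, by simp, fun u _ => ?_⟩
    · have e : LinearMap.range ((0 : X →L[ℝ] X) : X →ₗ[ℝ] X) = ⊥ := by simp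
      rw [e]
      infer_instance
    · have e := h1.dist_le_mul (can X u) trivial (can X 0) trivial
      rw [h2, h2, NNReal.coe_zero, zero_mul, dist_zero_right] at e
      simpa using e.trans_lt hε
  · exact h.bap_of_bidual hθ hs hL hR

theorem IsFree.noSepRetract [Countable M] (h : IsFree o δ)
    (hs : ∃ θ : ℝ, 0 < θ ∧ ∀ x y : M, x ≠ y → θ ≤ dist x y) (hB : ∀ lam, ¬ BAP lam X) :
    NoSepRetract X := by
  obtain ⟨θ, hθ, hs⟩ := hs
  have := h.complete
  have := h.separable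
  obtain ⟨W, h1, h2, h3, h4⟩ := exists_separable_aux (X := X) (Y := StrongDual ℝ (StrongDual ℝ X))
    (NormedSpace.inclusionInDoubleDual ℝ X) fun n => by
      by_contra hc
      push Not at hc
      exact hB _ (h.bap_of_alr hθ hs (by positivity) hc)
  exact ⟨W, h1, h2, h3, fun L ⟨R, h5, h6⟩ => h4 L R h5 h6⟩

theorem sep_of_nat (h : ∀ x y : M, ∃ n : ℕ, dist x y = n) :
    ∃ θ : ℝ, 0 < θ ∧ ∀ x y : M, x ≠ y → θ ≤ dist x y := by
  refine ⟨1, one_pos, fun x y hxy => ?_⟩
  obtain ⟨n, hn⟩ := h x y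
  have h1 := dist_pos.2 hxy
  rw [hn] at h1 ⊢
  exact_mod_cast h1

theorem exists_bounded (L : ℝ≥0) (hL : 1 ≤ L) :
    ∃ (M : Type) (_ : MetricSpace M), Nonempty M ∧ Countable M ∧
      (∀ x y : M, ∃ n : ℕ, dist x y = n) ∧ (∀ x y : M, dist x y ≤ (52 * L + 65) ^ 2) ∧
      ∀ (X : Type) [NormedAddCommGroup X] [NormedSpace ℝ X] (o : M) (δ : M → X), IsFree o δ →
        ¬ BidualRetract L X := by
  obtain ⟨M, _, h1, h2, h3, h4, h5⟩ := H29.exists_bounded' L (by exact_mod_cast hL)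
  exact ⟨M, inferInstance, h1, h2, h3, h4, fun X _ _ o δ h hR =>
    h5 o (BAP.transfer h isFree_lipSpan (h.bap_of_retract (sep_of_nat h3) hR))⟩

end Vale.Agent.N090R
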