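import Mathlib.Analysis.Normed.Module.DoubleDual
import Mathlib.MeasureTheory.Integral.IntervalIntegral.FundThmCalculus
import Mathlib.Analysis.SpecificLimits.Basic

/-! Linearisation of a Lipschitz retraction `R : Y → X` on a countably generated subspace of `Y`
(smoothing in countably many directions, then differentiation at the origin). -/

set_option linter.unusedSectionVars false

namespace Vale.Agent.N090R

open Filter Topology intervalIntegral
open scoped NNReal

variable {Y X : Type} [NormedAddCommGroup Y] [NormedSpace ℝ Y] [NormedAddCommGroup X]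
  [NormedSpace ℝ X]

/-- Lipschitz bound in elementary form. -/
def Lp (L : ℝ) (Φ : Y → X) : Prop := ∀ y y', ‖Φ y - Φ y'‖ ≤ L * ‖y - y'‖

/-- Bound for mixed second differences in the direction `v`. -/
def Qd (C : ℝ) (v : Y) (Φ : Y → X) : Prop :=
  ∀ (y y' : Y) (t : ℝ), ‖(Φ (y + t • v) - Φ y) - (Φ (y' + t • v) - Φ y')‖ ≤ C * |t| * ‖y - y'‖

/-- Average along the segment `[0, w]`. -/
noncomputable def av (w : Y) (Φ : Y → X) (y : Y) : X := ∫ s in (0 : ℝ)..1, Φ (y + s • w)

theorem Lp.continuous {L : ℝ} {Φ : Y → X} (hL : 0 ≤ L) (h : Lp L Φ) : Continuous Φ := by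
  have : LipschitzWith ⟨L, hL⟩ Φ := LipschitzWith.of_dist_le_mul fun y y' => by
    rw [dist_eq_norm, dist_eq_norm]; exact h y y'
  exact this.continuous

theorem cont_line {Φ : Y → X} (h : Continuous Φ) (y w : Y) :
    Continuous fun s : ℝ => Φ (y + s • w) := by fun_prop

theorem norm_int_le {G : ℝ → X} {c : ℝ} (h : ∀ s, 0 ≤ s → s ≤ 1 → ‖G s‖ ≤ c) :
    ‖∫ s in (0 : ℝ)..1, G s‖ ≤ c := by
  have := norm_integral_le_of_norm_le_const (a := (0 : ℝ)) (b := 1) (C := c) (f := G) (by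
    intro s hs
    rw [Set.uIoc_of_le zero_le_one] at hs
    exact h s hs.1.le hs.2)
  simpa using this

theorem av_sub {Φ : Y → X} (h : Continuous Φ) (w y y' : Y) :
    av w Φ y - av w Φ y' = ∫ s in (0 : ℝ)..1, (Φ (y + s • w) - Φ (y' + s • w)) := by
  rw [av, av, integral_sub ((cont_line h y w).intervalIntegrable _ _)
    ((cont_line h y' w).intervalIntegrable _ _)]

theorem Lp.av {L : ℝ} {Φ : Y → X} (hL : 0 ≤ L) (h : Lp L Φ) (w : Y) : Lp L (av w Φ) := by
  intro y y'
  rw [av_sub (h.continuous hL)]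
  refine norm_int_le fun s _ _ => ?_
  have := h (y + s • w) (y' + s • w)
  rwa [add_sub_add_right_eq_sub] at this

theorem Qd.av {C : ℝ} {v : Y} {Φ : Y → X} (hc : Continuous Φ) (h : Qd C v Φ) (w : Y) :
    Qd C v (av w Φ) := by
  intro y y' t
  have c1 : ∀ a b : Y, Continuous fun s : ℝ => Φ (a + s • w) - Φ (b + s • w) := by
    intro a b; fun_prop
  rw [av_sub hc, av_sub hc, ← integral_sub ((c1 _ _).intervalIntegrable _ _)
    ((c1 _ _).intervalIntegrable _ _)]
  refine norm_int_le fun s _ _ => ?_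
  have := h (y + s • w) (y' + s • w) t
  rw [add_sub_add_right_eq_sub, add_right_comm y, add_right_comm y'] at this
  exact this

theorem av_close [CompleteSpace X] {L : ℝ} {Φ : Y → X} (hL : 0 ≤ L) (h : Lp L Φ) (w y : Y) :
    ‖av w Φ y - Φ y‖ ≤ L * ‖w‖ := by
  have h1 : av w Φ y - Φ y = ∫ s in (0 : ℝ)..1, (Φ (y + s • w) - Φ y) := by
    rw [av, integral_sub ((cont_line (h.continuous hL) y w).intervalIntegrable _ _)
      (continuous_const.intervalIntegrable _ _)]
    simp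
  rw [h1]
  refine norm_int_le fun s h0 h1 => (h _ _).trans ?_
  rw [add_sub_cancel_left, norm_smul, Real.norm_eq_abs, abs_of_nonneg h0]
  exact mul_le_mul_of_nonneg_left (mul_le_of_le_one_left (norm_nonneg _) h1) hL

/-- exchange of the two increments -/
theorem int_swap {g : ℝ → X} (hg : Continuous g) (s t : ℝ) :
    ∫ r in (0 : ℝ)..s, (g (r + t) - g r) = ∫ r in (0 : ℝ)..t, (g (r + s) - g r) := by
  have hi : ∀ a b : ℝ, IntervalIntegrable g MeasureTheory.volume a b := fun a b =>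
    hg.intervalIntegrable a b
  have h1 : ∀ s t : ℝ, ∫ r in (0 : ℝ)..s, (g (r + t) - g r) =
      (∫ r in (0 : ℝ)..(s + t), g r) - (∫ r in (0 : ℝ)..t, g r) - ∫ r in (0 : ℝ)..s, g r := by
    intro s t
    have c1 : Continuous fun r : ℝ => g (r + t) := by fun_prop
    rw [integral_sub (c1.intervalIntegrable _ _) (hi _ _), integral_comp_add_right g t, zero_add, integral_interval_sub_left (hi _ _) (hi _ _)]
  rw [h1 s t, h1 t s, add_comm t s]
  abel

theorem Lp.qd_av {L : ℝ} {Φ : Y → X} (hL : 0 ≤ L) (h : Lp L Φ) (v : Y) :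
    Qd (2 * L) v (N090R.av v Φ) := by
  have hc := h.continuous hL
  have key : ∀ (y : Y) (t : ℝ), N090R.av v Φ (y + t • v) - N090R.av v Φ y =
      ∫ r in (0 : ℝ)..t, (Φ (y + (r + 1) • v) - Φ (y + r • v)) := by
    intro y t
    rw [av_sub hc, ← int_swap (cont_line hc y v) 1 t]
    refine integral_congr fun s _ => ?_
    rw [add_smul, add_assoc, add_comm (t • v)]
  intro y y' t
  have c1 : ∀ y : Y, Continuous fun r : ℝ => Φ (y + (r + 1) • v) - Φ (y + r • v) := by
    intro y; fun_prop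
  rw [key, key, ← integral_sub ((c1 y).intervalIntegrable _ _) ((c1 y').intervalIntegrable _ _)]
  have := norm_integral_le_of_norm_le_const (a := (0 : ℝ)) (b := t) (C := 2 * L * ‖y - y'‖)
    (f := fun r => (Φ (y + (r + 1) • v) - Φ (y + r • v)) -
      (Φ (y' + (r + 1) • v) - Φ (y' + r • v))) (by
    intro r _
    have h1 := h (y + (r + 1) • v) (y' + (r + 1) • v)
    have h2 := h (y + r • v) (y' + r • v)
    rw [add_sub_add_right_eq_sub] at h1 h2
    rw [sub_sub_sub_comm]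
    refine (norm_sub_le _ _).trans ?_
    linarith)
  rw [sub_zero] at this
  linarith

/-- Smoothing in finitely many directions of the subspace. -/
theorem smooth_fin [CompleteSpace X] {L : ℝ} (hL : 0 ≤ L) (ι : X →L[ℝ] Y) {R : Y → X}
    (hR : Lp L R) (hι : ∀ a, R (ι a) = a) (A : Finset X) :
    ∃ Ψ : Y → X, Lp L Ψ ∧ (∀ a, Ψ (ι a) - Ψ 0 = a) ∧ ∀ x ∈ A, Qd (2 * L) (ι x) Ψ := by
  classical
  induction A using Finset.induction_on with
  | empty =>
    refine ⟨R, hR, fun a => ?_, by simp⟩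
    have := hι 0
    rw [map_zero] at this
    rw [hι, this, sub_zero]
  | insert x A _ ih =>
    obtain ⟨Ψ, h1, h2, h3⟩ := ih
    refine ⟨av (ι x) Ψ, h1.av hL _, fun a => ?_, fun x' hx' => ?_⟩
    · rw [av_sub (h1.continuous hL)]
      have : ∀ s : ℝ, Ψ (ι a + s • ι x) - Ψ (0 + s • ι x) = a := by
        intro s
        have e1 := h2 (a + s • x)
        have e2 := h2 (s • x)
        rw [map_add, map_smul] at e1
        rw [map_smul] at e2
        rw [zero_add, eq_add_of_sub_eq e1, eq_add_of_sub_eq e2]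
        abel
      simp only [this]
      simp
    · rcases Finset.mem_insert.1 hx' with rfl | hx'
      · exact h1.qd_av hL _
      · exact (h3 x' hx').av (h1.continuous hL) _

/-- iterated averages -/
noncomputable def iter (v : ℕ → Y) (Ψ : Y → X) : ℕ → Y → X
  | 0 => Ψ
  | n + 1 => av (v n) (iter v Ψ n)

/-- Smoothing in countably many small directions. -/
theorem smooth_seq [CompleteSpace X] {L η : ℝ} (hL : 0 ≤ L) {Ψ : Y → X} (hΨ : Lp L Ψ)
    (v : ℕ → Y) (hv : ∀ n, ‖v n‖ ≤ η / 2 / 2 ^ n) :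
    ∃ Φ : Y → X, Lp L Φ ∧ (∀ y, ‖Φ y - Ψ y‖ ≤ L * η) ∧ (∀ n, Qd (2 * L) (v n) Φ) ∧
      ∀ C w, Qd C w Ψ → Qd C w Φ := by
  have h1 : ∀ n, Lp L (iter v Ψ n) := by
    intro n
    induction n with
    | zero => exact hΨ
    | succ n ih => exact ih.av hL _
  have h2 : ∀ y n, dist (iter v Ψ n y) (iter v Ψ (n + 1) y) ≤ L * η / 2 / 2 ^ n := by
    intro y n
    rw [dist_comm, dist_eq_norm]
    refine (av_close hL (h1 n) _ _).trans ?_
    have := mul_le_mul_of_nonneg_left (hv n) hL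
    calc L * ‖v n‖ ≤ L * (η / 2 / 2 ^ n) := this
      _ = L * η / 2 / 2 ^ n := by ring
  have h3 : ∀ y, ∃ a, Tendsto (fun n => iter v Ψ n y) atTop (𝓝 a) := fun y =>
    cauchySeq_tendsto_of_complete (cauchySeq_of_le_geometric_two (h2 y))
  choose Φ hΦ using h3
  have h4 : ∀ C w m, Qd C w (iter v Ψ m) → Qd C w Φ := by
    intro C w m hm y y' t
    have h5 : ∀ n, m ≤ n → Qd C w (iter v Ψ n) := by
      intro n hn
      induction n, hn using Nat.le_induction with
      | base => exact hm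
      | succ n _ ih => exact ih.av ((h1 n).continuous hL) _
    refine le_of_tendsto (((hΦ _).sub (hΦ _)).sub ((hΦ _).sub (hΦ _))).norm ?_
    exact (eventually_ge_atTop m).mono fun n hn => h5 n hn y y' t
  refine ⟨Φ, fun y y' => ?_, fun y => ?_, fun n => h4 _ _ (n + 1) ((h1 n).qd_av hL _),
    fun C w h => h4 C w 0 h⟩
  · exact le_of_tendsto' ((hΦ y).sub (hΦ y')).norm fun n => h1 n y y'
  · have := dist_le_of_le_geometric_two_of_tendsto₀ (h2 y) (hΦ y)
    rw [dist_comm, dist_eq_norm] at this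
    exact this

/-- A curve with bounded mixed second differences is differentiable at the origin. -/
theorem exists_deriv [CompleteSpace X] {g : ℝ → X} (hg : Continuous g) {C : ℝ}
    (h : ∀ s t, ‖g (s + t) - g s - (g t - g 0)‖ ≤ C * |t| * |s|) :
    ∃ D : X, ∀ t, ‖g t - g 0 - t • D‖ ≤ C * t ^ 2 := by
  have hC : 0 ≤ C := by
    have := (norm_nonneg _).trans (h 1 1)
    simpa using this
  have h1 : ∀ s t : ℝ, ‖(∫ r in (0 : ℝ)..s, (g (r + t) - g r)) - s • (g t - g 0)‖ ≤
      C * |t| * |s| * |s| := by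
    intro s t
    have c1 : Continuous fun r : ℝ => g (r + t) - g r := by fun_prop
    have e : (∫ r in (0 : ℝ)..s, (g (r + t) - g r)) - s • (g t - g 0) =
        ∫ r in (0 : ℝ)..s, (g (r + t) - g r - (g t - g 0)) := by
      rw [integral_sub (c1.intervalIntegrable _ _) (continuous_const.intervalIntegrable _ _),
        integral_const, sub_zero]
    rw [e]
    have := norm_integral_le_of_norm_le_const (a := (0 : ℝ)) (b := s) (C := C * |t| * |s|)
      (f := fun r => g (r + t) - g r - (g t - g 0)) (by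
      intro r hr
      refine (h r t).trans (mul_le_mul_of_nonneg_left ?_ (by positivity))
      have := Set.abs_sub_left_of_mem_uIcc (Set.uIoc_subset_uIcc hr)
      simpa using this)
    simpa using this
  have h2 : ∀ s t : ℝ, s ≠ 0 → t ≠ 0 →
      ‖t⁻¹ • (g t - g 0) - s⁻¹ • (g s - g 0)‖ ≤ C * (|s| + |t|) := by
    intro s t hs ht
    have e1 := h1 s t
    have e2 := h1 t s
    rw [int_swap hg s t] at e1
    have e3 : ‖s • (g t - g 0) - t • (g s - g 0)‖ ≤ C * |t| * |s| * |s| + C * |s| * |t| * |t| := by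
      have : s • (g t - g 0) - t • (g s - g 0) =
          ((∫ r in (0 : ℝ)..t, (g (r + s) - g r)) - t • (g s - g 0)) -
          ((∫ r in (0 : ℝ)..t, (g (r + s) - g r)) - s • (g t - g 0)) := by abel
      rw [this]
      refine (norm_sub_le _ _).trans ?_
      linarith
    have e4 : s • (g t - g 0) - t • (g s - g 0) =
        (s * t) • (t⁻¹ • (g t - g 0) - s⁻¹ • (g s - g 0)) := by
      rw [smul_sub (s * t), smul_smul, smul_smul]
      congr 2 <;> field_simp
    rw [e4, norm_smul, Real.norm_eq_abs, abs_mul] at e3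
    have hp : 0 < |s| * |t| := by positivity
    refine le_of_mul_le_mul_left ?_ hp
    linarith
  set q : ℕ → X := fun n => ((1 / 2 : ℝ) ^ n)⁻¹ • (g ((1 / 2) ^ n) - g 0) with hq
  have h3 : ∀ n, dist (q n) (q (n + 1)) ≤ 4 * C / 2 / 2 ^ n := by
    intro n
    rw [dist_eq_norm]
    refine (h2 _ _ (by positivity) (by positivity)).trans ?_
    rw [abs_of_pos (by positivity), abs_of_pos (by positivity), pow_succ, one_div_pow]
    have : (0 : ℝ) < 2 ^ n := by positivity
    have e : 4 * C / 2 / 2 ^ n = C * (1 / 2 ^ n + 1 / 2 ^ n) := by ring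
    rw [e]
    refine mul_le_mul_of_nonneg_left ?_ hC
    have : (0 : ℝ) < 1 / 2 ^ n := by positivity
    linarith
  obtain ⟨D, hD⟩ := cauchySeq_tendsto_of_complete (cauchySeq_of_le_geometric_two h3)
  refine ⟨D, fun t => ?_⟩
  rcases eq_or_ne t 0 with rfl | ht
  · simp
  have h4 : ‖t⁻¹ • (g t - g 0) - D‖ ≤ C * (|(0 : ℝ)| + |t|) := by
    have l1 : Tendsto (fun n => ‖t⁻¹ • (g t - g 0) - q n‖) atTop (𝓝 ‖t⁻¹ • (g t - g 0) - D‖) :=
      (tendsto_const_nhds.sub hD).norm
    have l2 : Tendsto (fun n : ℕ => C * (|(1 / 2 : ℝ) ^ n| + |t|)) atTop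
        (𝓝 (C * (|(0 : ℝ)| + |t|))) :=
      (((tendsto_pow_atTop_nhds_zero_of_lt_one (by norm_num) (by norm_num)).abs).add
        tendsto_const_nhds).const_mul C
    exact le_of_tendsto_of_tendsto' l1 l2 fun n => h2 _ _ (by positivity) ht
  have e : g t - g 0 - t • D = t • (t⁻¹ • (g t - g 0) - D) := by
    rw [smul_sub t, smul_smul, mul_inv_cancel₀ ht, one_smul]
  rw [e, norm_smul, Real.norm_eq_abs]
  rw [abs_zero, zero_add] at h4
  calc |t| * ‖t⁻¹ • (g t - g 0) - D‖ ≤ |t| * (C * |t|) := by gcongr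
    _ = C * t ^ 2 := by rw [← sq_abs]; ring

theorem le_of_small {a b K : ℝ} (h : ∀ t, 0 < t → a ≤ b + K * t) : a ≤ b := by
  have l : Tendsto (fun t : ℝ => b + K * t) (𝓝[>] 0) (𝓝 (b + K * 0)) :=
    ((continuous_const.add (continuous_const.mul continuous_id)).tendsto 0).mono_left
      nhdsWithin_le_nhds
  rw [mul_zero, add_zero] at l
  exact ge_of_tendsto l (eventually_nhdsWithin_of_forall fun t ht => h t ht)

theorem eq_zero_of_small {d : X} {K : ℝ} (h : ∀ t : ℝ, 0 < t → ‖t • d‖ ≤ K * t ^ 2) : d = 0 := by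
  refine norm_le_zero_iff.1 (le_of_small (K := K) fun t ht => ?_)
  have := h t ht
  rw [norm_smul, Real.norm_eq_abs, abs_of_pos ht] at this
  refine le_of_mul_le_mul_left ?_ ht
  nlinarith

/-- The directions with bounded mixed second differences. -/
def good (Φ : Y → X) : Submodule ℝ Y where
  carrier := {v | ∃ C, Qd C v Φ}
  zero_mem' := ⟨0, fun y y' t => by simp⟩
  add_mem' := by
    rintro v w ⟨C, hC⟩ ⟨C', hC'⟩
    refine ⟨C + C', fun y y' t => ?_⟩
    have h1 := hC (y + t • w) (y' + t • w) t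
    have h2 := hC' y y' t
    rw [add_sub_add_right_eq_sub] at h1
    have e : Φ (y + t • (v + w)) - Φ y - (Φ (y' + t • (v + w)) - Φ y') =
        (Φ (y + t • w + t • v) - Φ (y + t • w) - (Φ (y' + t • w + t • v) - Φ (y' + t • w))) +
        (Φ (y + t • w) - Φ y - (Φ (y' + t • w) - Φ y')) := by
      rw [smul_add, add_comm (t • v), ← add_assoc, ← add_assoc]
      abel
    rw [e]
    refine (norm_add_le _ _).trans ?_
    linarith
  smul_mem' := by
    rintro c v ⟨C, hC⟩
    refine ⟨C * |c|, fun y y' t => ?_⟩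
    have h1 := hC y y' (t * c)
    rw [smul_smul]
    refine h1.trans (le_of_eq ?_)
    rw [abs_mul]
    ring

/-- The derivative at the origin along the good directions. -/
theorem exists_linear [CompleteSpace X] {L : ℝ} (hL : 0 ≤ L) {Φ : Y → X} (hΦ : Lp L Φ) :
    ∃ T : good Φ →ₗ[ℝ] X, (∀ v, ‖T v‖ ≤ L * ‖v‖) ∧
      ∀ (v : good Φ) (C : ℝ), Qd C (v : Y) Φ → ∀ t : ℝ,
        ‖Φ (t • (v : Y)) - Φ 0 - t • T v‖ ≤ C * ‖v‖ * t ^ 2 := by
  have hc := hΦ.continuous hL
  have h1 : ∀ (v : Y) (C : ℝ), Qd C v Φ →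
      ∃ D : X, ∀ t : ℝ, ‖Φ (t • v) - Φ 0 - t • D‖ ≤ C * ‖v‖ * t ^ 2 := by
    intro v C hC
    have := exists_deriv (g := fun t : ℝ => Φ (t • v)) (by fun_prop) (C := C * ‖v‖) (by
      intro s t
      have := hC (s • v) 0 t
      rw [← add_smul, zero_add, sub_zero, norm_smul, Real.norm_eq_abs] at this
      simp only [zero_smul]
      refine this.trans (le_of_eq ?_)
      ring)
    simpa using this
  have uniq : ∀ (v : Y) (D D' : X) (K K' : ℝ),
      (∀ t : ℝ, ‖Φ (t • v) - Φ 0 - t • D‖ ≤ K * t ^ 2) →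
      (∀ t : ℝ, ‖Φ (t • v) - Φ 0 - t • D'‖ ≤ K' * t ^ 2) → D = D' := by
    intro v D D' K K' e1 e2
    refine sub_eq_zero.1 (eq_zero_of_small (K := K + K') fun t _ => ?_)
    have e : t • (D - D') = (Φ (t • v) - Φ 0 - t • D') - (Φ (t • v) - Φ 0 - t • D) := by
      rw [smul_sub]; abel
    rw [e]
    refine (norm_sub_le _ _).trans ?_
    have := e1 t
    have := e2 t
    linarith
  have h2 : ∀ v : good Φ, ∃ D : X, ∃ K : ℝ, ∀ t : ℝ,
      ‖Φ (t • (v : Y)) - Φ 0 - t • D‖ ≤ K * t ^ 2 := by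
    rintro ⟨v, C, hC⟩
    obtain ⟨D, hD⟩ := h1 v C hC
    exact ⟨D, _, hD⟩
  choose D K hD using h2
  refine ⟨⟨⟨D, fun v w => ?_⟩, fun c v => ?_⟩, fun v => ?_, fun v C hC => ?_⟩
  · obtain ⟨C, hC⟩ := v.2
    refine uniq _ _ _ _ (C * ‖(w : Y)‖ + K v + K w) (hD (v + w)) fun t => ?_
    have e1 := hC (t • (w : Y)) 0 t
    have e : Φ (t • ((v + w : good Φ) : Y)) - Φ 0 - t • (D v + D w) =
        (Φ (t • (w : Y) + t • (v : Y)) - Φ (t • (w : Y)) - (Φ (0 + t • (v : Y)) - Φ 0)) +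
        (Φ (t • (v : Y)) - Φ 0 - t • D v) + (Φ (t • (w : Y)) - Φ 0 - t • D w) := by
      rw [Submodule.coe_add, smul_add, smul_add, zero_add, add_comm (t • (w : Y))]
      abel
    rw [e]
    refine (norm_add₃_le).trans ?_
    rw [sub_zero, norm_smul, Real.norm_eq_abs] at e1
    have e2 := hD v t
    have e3 := hD w t
    have e4 : C * |t| * (|t| * ‖(w : Y)‖) = C * ‖(w : Y)‖ * t ^ 2 := by rw [← sq_abs]; ring
    linarith
  · refine uniq _ _ _ _ (K v * c ^ 2) (hD (c • v)) fun t => ?_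
    have e1 := hD v (t * c)
    simp only [RingHom.id_apply, SetLike.val_smul, smul_smul]
    refine e1.trans (le_of_eq ?_)
    ring
  · refine le_of_small (K := K v) fun t ht => ?_
    have e1 := hD v t
    have e2 := hΦ (t • (v : Y)) 0
    rw [sub_zero, norm_smul, Real.norm_eq_abs, abs_of_pos ht] at e2
    have e3 : ‖t • D v‖ ≤ L * (t * ‖(v : Y)‖) + K v * t ^ 2 := by
      have e : t • D v = (Φ (t • (v : Y)) - Φ 0) - (Φ (t • (v : Y)) - Φ 0 - t • D v) := by abel
      rw [e]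
      exact (norm_sub_le _ _).trans (add_le_add e2 e1)
    rw [norm_smul, Real.norm_eq_abs, abs_of_pos ht] at e3
    refine le_of_mul_le_mul_left ?_ ht
    change t * ‖D v‖ ≤ t * (L * ‖(v : Y)‖ + K v * t)
    nlinarith
  · obtain ⟨D', hD'⟩ := h1 v C hC
    have : D v = D' := uniq _ _ _ _ _ (hD v) hD'
    intro t
    change ‖Φ (t • (v : Y)) - Φ 0 - t • D v‖ ≤ _
    rw [this]
    exact hD' t

/-- **Linearisation.** If `R` is a Lipschitz left inverse of the linear map `ι : X → Y`, then on a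
subspace containing given countably many vectors there is a linear map into `X` with the same bound
which almost inverts `ι` at finitely many given points. -/
theorem linearize [CompleteSpace X] {L : ℝ} (hL : 0 ≤ L) (ι : X →L[ℝ] Y) {R : Y → X}
    (hR : Lp L R) (hι : ∀ a, R (ι a) = a) (A : Finset X) {J : Type} [Countable J] (z : J → Y)
    {ε : ℝ} (hε : 0 < ε) :
    ∃ (G : Submodule ℝ Y) (T : Y →ₗ[ℝ] X), (∀ j, z j ∈ G) ∧ (∀ x ∈ A, ι x ∈ G) ∧
      (∀ v ∈ G, ‖T v‖ ≤ L * ‖v‖) ∧ ∀ x ∈ A, ‖T (ι x) - x‖ ≤ ε := by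
  classical
  obtain ⟨Ψ, h1, h2, h3⟩ := smooth_fin hL ι hR hι A
  obtain ⟨e, he⟩ := exists_surjective_nat (Option J)
  set w : ℕ → Y := fun n => (e n).elim 0 z with hw
  set B : ℝ := ∑ x ∈ A, ‖ι x‖ with hB
  have hB0 : 0 ≤ B := Finset.sum_nonneg fun _ _ => norm_nonneg _
  set t : ℝ := ε / (2 * L * (B + 1) + 1) with ht
  have ht0 : 0 < t := by positivity
  set c : ℕ → ℝ := fun n => t ^ 2 / 2 / 2 ^ n / (‖w n‖ + 1) with hc
  have hc0 : ∀ n, 0 < c n := fun n => by positivity
  obtain ⟨Φ, g1, g2, g3, g4⟩ := smooth_seq (η := t ^ 2) hL h1 (fun n => c n • w n) (by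
    intro n
    rw [norm_smul, Real.norm_eq_abs, abs_of_pos (hc0 n), hc]
    simp only
    rw [div_mul_eq_mul_div, div_le_iff₀ (by positivity)]
    exact mul_le_mul_of_nonneg_left (by linarith) (by positivity))
  obtain ⟨T, k1, k2⟩ := exists_linear hL g1
  obtain ⟨T', hT'⟩ := LinearMap.exists_extend T
  have hT : ∀ v : good Φ, T' v = T v := fun v => by rw [← hT']; rfl
  have hA : ∀ x ∈ A, ι x ∈ good Φ := fun x hx => ⟨_, g4 _ _ (h3 x hx)⟩
  refine ⟨good Φ, T', fun j => ?_, hA, fun v hv => ?_, fun x hx => ?_⟩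
  · obtain ⟨n, hn⟩ := he (some j)
    have e1 : c n • w n ∈ good Φ := ⟨_, g3 n⟩
    have e2 : w n = z j := by simp [hw, hn]
    have := (good Φ).smul_mem (c n)⁻¹ e1
    rwa [smul_smul, inv_mul_cancel₀ (hc0 n).ne', one_smul, e2] at this
  · exact (hT ⟨v, hv⟩).symm ▸ k1 ⟨v, hv⟩
  · have e1 := k2 ⟨ι x, hA x hx⟩ _ (g4 _ _ (h3 x hx)) t
    rw [← hT] at e1
    change ‖Φ (t • ι x) - Φ 0 - t • T' (ι x)‖ ≤ 2 * L * ‖ι x‖ * t ^ 2 at e1
    have e2 := h2 (t • x)
    rw [map_smul] at e2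
    have e3 := g2 (t • ι x)
    have e4 := g2 0
    have e5 : ‖ι x‖ ≤ B := Finset.single_le_sum (f := fun x => ‖ι x‖) (fun _ _ => norm_nonneg _) hx
    have e : t • (T' (ι x) - x) = (Φ (t • ι x) - Ψ (t • ι x)) - (Φ 0 - Ψ 0) -
        (Φ (t • ι x) - Φ 0 - t • T' (ι x)) := by
      rw [smul_sub, ← e2]; abel
    have e6 : ‖t • (T' (ι x) - x)‖ ≤ 2 * L * (B + 1) * t ^ 2 := by
      rw [e]
      refine (norm_sub_le _ _).trans ((add_le_add_left (norm_sub_le _ _) _).trans ?_)
      have : 2 * L * ‖ι x‖ * t ^ 2 ≤ 2 * L * B * t ^ 2 := by gcongr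
      linarith
    rw [norm_smul, Real.norm_eq_abs, abs_of_pos ht0] at e6
    have e7 : ‖T' (ι x) - x‖ ≤ 2 * L * (B + 1) * t := by
      refine le_of_mul_le_mul_left ?_ ht0
      nlinarith
    refine e7.trans ?_
    rw [ht, ← mul_div_assoc, div_le_iff₀ (by positivity)]
    nlinarith

end Vale.Agent.N090R
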