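import Vale.Agent.N090R.Defs
import Vale.Agent.N090R.Smooth
import Mathlib.Analysis.Normed.Lp.lpSpace
import Mathlib.Analysis.Normed.Group.Tannery
import Mathlib.Analysis.LocallyConvex.Separation

/-! The trace argument: a Lipschitz retraction of the bidual bounds the trace functional. -/

set_option linter.unusedSectionVars false

namespace Vale.Agent.N090R

open Filter Topology
open scoped NNReal ENNReal

variable {X : Type} [NormedAddCommGroup X] [NormedSpace ℝ X]

/-- Hahn-Banach: a dominated functional factors. -/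
theorem hb_factor {E V : Type} [AddCommGroup E] [Module ℝ E] [NormedAddCommGroup V]
    [NormedSpace ℝ V] (j : E →ₗ[ℝ] V) (φ : E →ₗ[ℝ] ℝ) {c : ℝ} (hc : 0 ≤ c)
    (h : ∀ e, |φ e| ≤ c * ‖j e‖) :
    ∃ Λ : V →L[ℝ] ℝ, (∀ e, Λ (j e) = φ e) ∧ ‖Λ‖ ≤ c := by
  have hk : LinearMap.ker j ≤ LinearMap.ker φ := by
    intro e he
    have := h e
    rw [LinearMap.mem_ker.1 he, norm_zero, mul_zero] at this
    exact abs_nonpos_iff.1 this
  set ψ : LinearMap.range j →ₗ[ℝ] ℝ :=
    ((LinearMap.ker j).liftQ φ hk).comp (j.quotKerEquivRange.symm : LinearMap.range j →ₗ[ℝ] _)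
    with hψ
  have h1 : ∀ e, ψ ⟨j e, LinearMap.mem_range_self j e⟩ = φ e := by
    intro e
    simp [hψ, LinearMap.quotKerEquivRange_symm_apply_image]
  have h2 : ∀ u : LinearMap.range j, ‖ψ u‖ ≤ c * ‖u‖ := by
    rintro ⟨_, e, rfl⟩
    rw [h1 e]
    exact h e
  obtain ⟨g, hg, hn⟩ := exists_extension_norm_eq (LinearMap.range j) (ψ.mkContinuous c h2)
  refine ⟨g, fun e => ?_, hn ▸ LinearMap.mkContinuous_norm_le _ hc _⟩
  have := hg ⟨j e, LinearMap.mem_range_self j e⟩
  rw [LinearMap.mkContinuous_apply, h1] at this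
  exact this

/-- The finite rank operators. -/
def FR (X : Type) [NormedAddCommGroup X] [NormedSpace ℝ X] : Submodule ℝ (X →L[ℝ] X) where
  carrier := {T | FiniteDimensional ℝ (LinearMap.range (T : X →ₗ[ℝ] X))}
  zero_mem' := by
    change FiniteDimensional ℝ (LinearMap.range ((0 : X →L[ℝ] X) : X →ₗ[ℝ] X))
    rw [ContinuousLinearMap.toLinearMap_zero, LinearMap.range_zero]
    infer_instance
  add_mem' := by
    intro S T hS hT
    change FiniteDimensional ℝ (LinearMap.range (S : X →ₗ[ℝ] X)) at hS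
    change FiniteDimensional ℝ (LinearMap.range (T : X →ₗ[ℝ] X)) at hT
    refine Submodule.finiteDimensional_of_le (S₂ := LinearMap.range (S : X →ₗ[ℝ] X) ⊔
      LinearMap.range (T : X →ₗ[ℝ] X)) ?_
    rintro _ ⟨x, rfl⟩
    exact Submodule.add_mem_sup ⟨x, rfl⟩ ⟨x, rfl⟩
  smul_mem' := by
    intro c T hT
    change FiniteDimensional ℝ (LinearMap.range (T : X →ₗ[ℝ] X)) at hT
    refine Submodule.finiteDimensional_of_le (S₂ := LinearMap.range (T : X →ₗ[ℝ] X)) ?_
    rintro _ ⟨x, rfl⟩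
    exact Submodule.smul_mem _ c ⟨x, rfl⟩

theorem rankOne_mem (φ : StrongDual ℝ X) (y : X) : φ.smulRight y ∈ FR X := by
  refine Submodule.finiteDimensional_of_le (S₂ := Submodule.span ℝ {y}) ?_
  rintro _ ⟨x, rfl⟩
  exact Submodule.smul_mem _ _ (Submodule.mem_span_singleton_self y)

/-- Pairs of a vector and a functional of norm at most one. -/
abbrev KK (X : Type) [NormedAddCommGroup X] [NormedSpace ℝ X] : Type :=
  {x : X // ‖x‖ ≤ 1} × {g : StrongDual ℝ X // ‖g‖ ≤ 1}

theorem kk_bound (φ : StrongDual ℝ X) (k : KK X) : |φ k.1.1| ≤ ‖φ‖ :=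
  (φ.le_opNorm _).trans (mul_le_of_le_one_right (norm_nonneg _) k.1.2)

theorem memlp {K : Type} {h : K → ℝ} {b : ℝ} (hb : ∀ k, |h k| ≤ b) : Memℓp h ∞ :=
  memℓp_infty ⟨b, by rintro _ ⟨k, rfl⟩; exact hb k⟩

theorem op_bound (T : X →L[ℝ] X) (k : KK X) : |k.2.1 (T k.1.1)| ≤ ‖T‖ := by
  refine (k.2.1.le_opNorm _).trans ((mul_le_of_le_one_left (norm_nonneg _) k.2.2).trans ?_)
  exact (T.le_opNorm _).trans (mul_le_of_le_one_right (norm_nonneg _) k.1.2)

/-- A bounded functional on the finite rank operators is a finitely additive measure on `KK X`. -/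
theorem exists_Lambda {J : Type} [Fintype J] (f : J → StrongDual ℝ X) (x : J → X) {c : ℝ}
    (hc : 0 ≤ c) (h : ∀ T ∈ FR X, |∑ j, f j (T (x j))| ≤ c * ‖T‖) :
    ∃ Λ : (KK X → ℝ) →ₗ[ℝ] ℝ, (∀ (u : KK X → ℝ) (b : ℝ), (∀ k, |u k| ≤ b) → |Λ u| ≤ c * b) ∧
      ∀ (φ : StrongDual ℝ X) (y : X),
        Λ (fun k => φ k.1.1 * k.2.1 y) = ∑ j, φ (x j) * f j y := by
  let jj : FR X →ₗ[ℝ] lp (fun _ : KK X => ℝ) ∞ :=
    { toFun := fun T => ⟨fun k => k.2.1 (T.1 k.1.1), memlp (op_bound T.1)⟩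
      map_add' := fun S T => lp.ext (funext fun k => map_add k.2.1 (S.1 k.1.1) (T.1 k.1.1))
      map_smul' := fun a T => lp.ext (funext fun k => by simp) }
  let ph : FR X →ₗ[ℝ] ℝ :=
    { toFun := fun T => ∑ j, f j (T.1 (x j))
      map_add' := fun S T => by simp [Finset.sum_add_distrib]
      map_smul' := fun a T => by simp [Finset.mul_sum] }
  have hn : ∀ T : FR X, ‖T.1‖ ≤ ‖jj T‖ := by
    intro T
    refine ContinuousLinearMap.opNorm_le_of_unit_norm (norm_nonneg _) fun a ha => ?_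
    obtain ⟨g, hg, hga⟩ := exists_dual_vector'' ℝ (T.1 a)
    have := lp.norm_apply_le_norm ENNReal.top_ne_zero (jj T) (⟨a, ha.le⟩, ⟨g, hg⟩)
    change ‖g (T.1 a)‖ ≤ _ at this
    rw [hga] at this
    simpa using this
  obtain ⟨Λ0, h1, h2⟩ := hb_factor jj ph hc fun T =>
    (h T.1 T.2).trans (mul_le_mul_of_nonneg_left (hn T) hc)
  let co : lp (fun _ : KK X => ℝ) ∞ →ₗ[ℝ] (KK X → ℝ) :=
    { toFun := fun a => a
      map_add' := fun a b => lp.coeFn_add a b
      map_smul' := fun a b => lp.coeFn_smul a b }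
  obtain ⟨li, hli⟩ := co.exists_leftInverse_of_injective
    (LinearMap.ker_eq_bot.2 fun a b hab => lp.ext hab)
  have h3 : ∀ a : lp (fun _ : KK X => ℝ) ∞, li (co a) = a := fun a => LinearMap.congr_fun hli a
  refine ⟨(Λ0 : _ →ₗ[ℝ] ℝ).comp li, fun u b hb => ?_, fun φ y => ?_⟩
  · have hb0 : 0 ≤ b := (abs_nonneg _).trans (hb (⟨0, by simp⟩, ⟨0, by simp⟩))
    have e : li u = ⟨u, memlp hb⟩ := h3 ⟨u, memlp hb⟩
    change |Λ0 (li u)| ≤ _
    rw [e]
    refine (Λ0.le_opNorm _).trans (mul_le_mul h2 ?_ (norm_nonneg _) hc)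
    exact lp.norm_le_of_forall_le hb0 fun k => hb k
  · have e : (fun k : KK X => φ k.1.1 * k.2.1 y) = co (jj ⟨φ.smulRight y, rankOne_mem φ y⟩) := by
      funext k
      change _ = k.2.1 (φ.smulRight y k.1.1)
      simp
    change Λ0 (li _) = _
    rw [e, h3, h1]
    change ∑ j, f j (φ.smulRight y (x j)) = _
    simp

theorem exists_almost_norming {E : Type} [NormedAddCommGroup E] [NormedSpace ℝ E]
    (z : StrongDual ℝ E) {δ : ℝ} (hδ : 0 < δ) : ∃ φ : E, ‖φ‖ ≤ 1 ∧ ‖z‖ - δ ≤ z φ := by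
  obtain ⟨a, ha, h⟩ := z.exists_lt_apply_of_lt_opNorm (r := ‖z‖ - δ) (by linarith)
  rw [Real.norm_eq_abs] at h
  rcases le_total 0 (z a) with h0 | h0
  · exact ⟨a, ha.le, by rw [abs_of_nonneg h0] at h; exact h.le⟩
  · exact ⟨-a, by rw [norm_neg]; exact ha.le, by rw [abs_of_nonpos h0] at h; simpa using h.le⟩

section

variable {I : Type} (v : I → X)

open Classical in
/-- The cell of the functional `g` in the partition given by the finite set `S` of tests. -/
noncomputable def code (S : Finset (I × ℚ)) (g : StrongDual ℝ X) : Finset (I × ℚ) :=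
  S.filter fun ω => g (v ω.1) ≤ ω.2

open Classical in
/-- A representative of a cell. -/
noncomputable def rep (S s : Finset (I × ℚ)) : StrongDual ℝ X :=
  if h : ∃ g : StrongDual ℝ X, ‖g‖ ≤ 1 ∧ code v S g = s then h.choose else 0

open Classical in
/-- The indicator function of a cell. -/
noncomputable def ind (S s : Finset (I × ℚ)) (g : StrongDual ℝ X) : ℝ :=
  if code v S g = s then 1 else 0

theorem rep_norm (S s : Finset (I × ℚ)) : ‖rep v S s‖ ≤ 1 := by
  unfold rep
  split_ifs with h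
  · exact h.choose_spec.1
  · simp

theorem code_rep (S : Finset (I × ℚ)) {g : StrongDual ℝ X} (hg : ‖g‖ ≤ 1) :
    code v S (rep v S (code v S g)) = code v S g := by
  have h : ∃ g' : StrongDual ℝ X, ‖g'‖ ≤ 1 ∧ code v S g' = code v S g := ⟨g, hg, rfl⟩
  unfold rep
  rw [dif_pos h]
  exact h.choose_spec.2

theorem code_mem (S : Finset (I × ℚ)) (g : StrongDual ℝ X) : code v S g ∈ S.powerset := by
  classical
  exact Finset.mem_powerset.2 (by unfold code; exact Finset.filter_subset _ _)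

theorem sum_ind (S : Finset (I × ℚ)) (g : StrongDual ℝ X) (a : Finset (I × ℚ) → ℝ) :
    ∑ s ∈ S.powerset, a s * ind v S s g = a (code v S g) := by
  classical
  rw [Finset.sum_eq_single (code v S g)]
  · simp [ind]
  · intro s _ hs
    simp [ind, hs.symm]
  · intro h
    exact absurd (code_mem v S g) h

theorem abs_ind_le (S s : Finset (I × ℚ)) (g : StrongDual ℝ X) : |ind v S s g| ≤ 1 := by
  unfold ind
  split_ifs <;> simp

theorem ind_refine [DecidableEq (I × ℚ)] {S S' : Finset (I × ℚ)} (h : S ⊆ S') (s : Finset (I × ℚ))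
    (g : StrongDual ℝ X) :
    ind v S s g = ∑ s' ∈ S'.powerset.filter (fun s' => s' ∩ S = s), ind v S' s' g := by
  have e : code v S' g ∩ S = code v S g := by
    ext ω
    simp only [code, Finset.mem_inter, Finset.mem_filter]
    exact ⟨fun h1 => ⟨h1.2, h1.1.2⟩, fun h1 => ⟨⟨h h1.1, h1.2⟩, h1.1⟩⟩
  rw [Finset.sum_filter]
  have := sum_ind v S' g fun s' => if s' ∩ S = s then 1 else 0
  simp only [ite_mul, one_mul, zero_mul] at this
  rw [this, e]
  unfold ind
  split_ifs <;> rfl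

theorem code_fine (i : I) {δ : ℝ} (hδ : 0 < δ) :
    ∀ᶠ S : Finset (I × ℚ) in atTop, ∀ g g' : StrongDual ℝ X, ‖g‖ ≤ 1 → ‖g'‖ ≤ 1 →
      code v S g = code v S g' → |g (v i) - g' (v i)| ≤ δ := by
  classical
  obtain ⟨N, hN⟩ := exists_nat_gt (1 / δ)
  have hN0 : (0 : ℝ) < N := lt_trans (by positivity) hN
  have hN1 : 1 ≤ δ * N := by
    rw [div_lt_iff₀ hδ] at hN
    linarith
  obtain ⟨B, hB⟩ := exists_nat_ge (N * ‖v i‖ + 1)
  refine (eventually_ge_atTop ((Finset.Icc (-(B : ℤ)) B).image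
    fun k : ℤ => (i, (k : ℚ) / N))).mono fun S hS => ?_
  have key : ∀ g g' : StrongDual ℝ X, ‖g‖ ≤ 1 → code v S g = code v S g' →
      g' (v i) - g (v i) ≤ δ := by
    intro g g' hg hc
    have h1 : |g (v i)| ≤ ‖v i‖ :=
      (g.le_opNorm _).trans (mul_le_of_le_one_left (norm_nonneg _) hg)
    obtain ⟨h2, h3⟩ := abs_le.1 h1
    have c1 := Int.le_ceil (N * g (v i))
    have c2 := Int.ceil_lt_add_one (N * g (v i))
    have m1 : (i, (⌈N * g (v i)⌉ : ℚ) / N) ∈ S := by
      refine hS (Finset.mem_image.2 ⟨⌈N * g (v i)⌉, Finset.mem_Icc.2 ⟨?_, ?_⟩, rfl⟩)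
      · have : ((-(B : ℤ) : ℤ) : ℝ) ≤ (⌈N * g (v i)⌉ : ℝ) := by
          push_cast
          nlinarith
        exact_mod_cast this
      · have : (⌈N * g (v i)⌉ : ℝ) ≤ ((B : ℤ) : ℝ) := by
          push_cast
          nlinarith
        exact_mod_cast this
    have m2 : (i, (⌈N * g (v i)⌉ : ℚ) / N) ∈ code v S g := by
      refine Finset.mem_filter.2 ⟨m1, ?_⟩
      push_cast
      rw [le_div_iff₀ hN0]
      linarith
    rw [hc] at m2
    have m3 := (Finset.mem_filter.1 m2).2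
    push_cast at m3
    rw [le_div_iff₀ hN0] at m3
    refine le_of_mul_le_mul_right ?_ hN0
    nlinarith
  intro g g' hg hg' hc
  exact abs_le.2 ⟨by linarith [key g g' hg hc], key g' g hg' hc.symm⟩

end

theorem lin_aux {Y : Type} [NormedAddCommGroup Y] [NormedSpace ℝ Y] (T : Y →ₗ[ℝ] X)
    {α β : Type} (s : Finset α) (t : Finset β) (a : α → ℝ) (y : α → Y) (b : β → ℝ) (w : β → Y) :
    T (∑ i ∈ s, a i • y i - ∑ j ∈ t, b j • w j) =
      ∑ i ∈ s, a i • T (y i) - ∑ j ∈ t, b j • T (w j) := by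
  simp only [map_sub, map_sum, map_smul]

/-- Approximate linear left inverses of `ι` on a subspace containing the sequence `z`. -/
def ALRat {Y : Type} [NormedAddCommGroup Y] [NormedSpace ℝ Y] (ι : X →L[ℝ] Y) (L : ℝ)
    (z : ℕ → Y) : Prop :=
  ∀ (A : Finset X) (ε : ℝ), 0 < ε → ∃ (G : Submodule ℝ Y) (T : Y →ₗ[ℝ] X), (∀ n, z n ∈ G) ∧
    (∀ x ∈ A, ι x ∈ G) ∧ (∀ v ∈ G, ‖T v‖ ≤ L * ‖v‖) ∧ ∀ x ∈ A, ‖T (ι x) - x‖ ≤ ε

theorem alrAt_of_retract [CompleteSpace X] {Y : Type} [NormedAddCommGroup Y] [NormedSpace ℝ Y]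
    {L : ℝ≥0} (ι : X →L[ℝ] Y) (W : Submodule ℝ Y) (hW : ∀ x, ι x ∈ W) {R : Y → X}
    (hR : LipschitzOnWith L R W) (hι : ∀ a, R (ι a) = a) {z : ℕ → Y} (hz : ∀ n, z n ∈ W) :
    ALRat ι L z := by
  intro A ε hε
  have h1 : Lp (L : ℝ) fun y : W => R y := fun y y' => by
    have := hR.dist_le_mul y y.2 y' y'.2
    rwa [dist_eq_norm, dist_eq_norm] at this
  obtain ⟨G, T, g1, g2, g3, g4⟩ := linearize L.2 (ι.codRestrict W hW) h1 hι A
    (fun n => (⟨z n, hz n⟩ : W)) hε
  obtain ⟨T', hT'⟩ := LinearMap.exists_extend T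
  have hT : ∀ v : W, T' v = T v := fun v => by rw [← hT']; rfl
  refine ⟨G.map W.subtype, T', fun j => ⟨_, g1 j, rfl⟩, fun x hx => ⟨_, g2 x hx, rfl⟩, ?_,
    fun x hx => ?_⟩
  · rintro _ ⟨v, hv, rfl⟩
    exact (hT v).symm ▸ g3 v hv
  · have := g4 x hx
    rw [← hT] at this
    exact this

/-- **The trace bound.** -/
theorem trace_bound {L : ℝ} (hL : 0 ≤ L)
    (hA : ∀ z, ALRat (X := X) (Y := StrongDual ℝ (StrongDual ℝ X))
      (NormedSpace.inclusionInDoubleDual ℝ X) L z)
    {I : Type} [Countable I] (e : I → StrongDual ℝ X) (v : I → X) {C ρ : ℝ} (hC : 0 ≤ C)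
    (hρ0 : 0 ≤ ρ) (he : ∀ (F : Finset I) (γ : X), ∑ i ∈ F, |e i γ| ≤ C * ‖γ‖)
    (hv : ∀ i, ‖v i‖ ≤ C)
    (hρ : ∀ (γ : X) (g : StrongDual ℝ X), |∑' i, e i γ * g (v i)| ≤ ρ * ‖g‖ * ‖γ‖)
    {J : Type} [Fintype J] (f : J → StrongDual ℝ X) (x : J → X)
    (hx : ∀ (j : J) (g : StrongDual ℝ X), ∑' i, e i (x j) * g (v i) = g (x j))
    {c : ℝ} (hc : 0 ≤ c) (h : ∀ T ∈ FR X, |∑ j, f j (T (x j))| ≤ c * ‖T‖) :
    ∑ j, f j (x j) ≤ ρ * L * c := by
  classical
  set κ := NormedSpace.inclusionInDoubleDual ℝ X with hκ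
  obtain ⟨Λ, hΛ, hΛ'⟩ := exists_Lambda f x hc h
  have hz0 : ∀ p : Finset (I × ℚ) × Finset (I × ℚ), ∃ z : StrongDual ℝ (StrongDual ℝ X),
      ∀ φ, z φ = Λ fun k => φ k.1.1 * ind v p.1 p.2 k.2.1 := by
    intro p
    refine ⟨LinearMap.mkContinuous
      { toFun := fun φ => Λ fun k => φ k.1.1 * ind v p.1 p.2 k.2.1
        map_add' := fun φ ψ => ?_
        map_smul' := fun a φ => ?_ } c fun φ => ?_, fun φ => rfl⟩
    · rw [← map_add]
      congr 1
      funext k
      simp [add_mul]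
    · rw [← map_smul]
      congr 1
      funext k
      simp [mul_assoc]
    · refine hΛ _ _ fun k => ?_
      rw [abs_mul]
      exact (mul_le_of_le_one_right (abs_nonneg _) (abs_ind_le v _ _ _)).trans (kk_bound φ k)
  choose z hz using hz0
  -- total variation
  have Z1 : ∀ S : Finset (I × ℚ), ∑ s ∈ S.powerset, ‖z (S, s)‖ ≤ c := by
    intro S
    refine le_of_small (K := S.powerset.card) fun t ht => ?_
    choose φ h1 h2 using fun s => exists_almost_norming (z (S, s)) ht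
    have e1 : ∑ s ∈ S.powerset, z (S, s) (φ s) = Λ fun k => φ (code v S k.2.1) k.1.1 := by
      simp only [hz]
      rw [← map_sum]
      congr 1
      funext k
      rw [Finset.sum_apply]
      exact sum_ind v S k.2.1 fun s => φ s k.1.1
    have e2 := hΛ (fun k => φ (code v S k.2.1) k.1.1) 1 fun k => (kk_bound _ k).trans (h1 _)
    rw [← e1, mul_one] at e2
    have e3 : ∑ s ∈ S.powerset, (‖z (S, s)‖ - t) ≤ ∑ s ∈ S.powerset, z (S, s) (φ s) :=
      Finset.sum_le_sum fun s _ => h2 s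
    rw [Finset.sum_sub_distrib, Finset.sum_const, nsmul_eq_mul] at e3
    linarith [le_abs_self (∑ s ∈ S.powerset, z (S, s) (φ s))]
  -- additivity
  have Z2 : ∀ S S' : Finset (I × ℚ), S ⊆ S' → ∀ s,
      z (S, s) = ∑ s' ∈ S'.powerset.filter (fun s' => s' ∩ S = s), z (S', s') := by
    intro S S' hS s
    ext φ
    rw [_root_.sum_apply]
    simp only [hz]
    rw [← map_sum]
    congr 1
    funext k
    rw [Finset.sum_apply, ← Finset.mul_sum, ← ind_refine v hS]
  -- approximation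
  have Z3 : ∀ (S : Finset (I × ℚ)) (y : X) (δ : ℝ), 0 ≤ δ →
      (∀ g g' : StrongDual ℝ X, ‖g‖ ≤ 1 → ‖g'‖ ≤ 1 → code v S g = code v S g' →
        |g y - g' y| ≤ δ) →
      ‖∑ s ∈ S.powerset, rep v S s y • z (S, s) - ∑ j, f j y • κ (x j)‖ ≤ c * δ := by
    intro S y δ hδ hS
    refine ContinuousLinearMap.opNorm_le_bound _ (by positivity) fun φ => ?_
    have e1 : (∑ s ∈ S.powerset, rep v S s y • z (S, s)) φ =
        Λ fun k => φ k.1.1 * rep v S (code v S k.2.1) y := by
      rw [_root_.sum_apply]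
      simp only [_root_.smul_apply, hz]
      simp only [← map_smul]
      rw [← map_sum]
      congr 1
      funext k
      rw [Finset.sum_apply, ← sum_ind v S k.2.1 fun s => φ k.1.1 * rep v S s y]
      refine Finset.sum_congr rfl fun s _ => ?_
      simp only [Pi.smul_apply, smul_eq_mul]
      ring
    have e2 : (∑ j, f j y • κ (x j)) φ = Λ fun k => φ k.1.1 * k.2.1 y := by
      rw [hΛ', _root_.sum_apply]
      refine Finset.sum_congr rfl fun j _ => ?_
      simp [hκ, mul_comm]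
    rw [_root_.sub_apply, e1, e2, ← map_sub, Real.norm_eq_abs, mul_assoc]
    refine hΛ _ _ fun k => ?_
    rw [Pi.sub_apply, ← mul_sub, abs_mul, mul_comm]
    exact mul_le_mul (hS _ _ (rep_norm v _ _) k.2.2 (code_rep v S k.2.2)) (kk_bound φ k)
      (abs_nonneg _) hδ
  have he1 : ∀ i γ, |e i γ| ≤ C * ‖γ‖ := fun i γ => by simpa using he {i} γ
  have hs0 : ∀ γ, Summable fun i => |e i γ| := fun γ =>
    summable_of_sum_le (fun _ => abs_nonneg _) fun F => he F γ
  have hgv : ∀ (g : StrongDual ℝ X) i, |g (v i)| ≤ ‖g‖ * C := fun g i =>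
    (g.le_opNorm _).trans (mul_le_mul_of_nonneg_left (hv i) (norm_nonneg _))
  have hs : ∀ (γ : X) (g : StrongDual ℝ X), Summable fun i => e i γ * g (v i) := by
    intro γ g
    refine Summable.of_norm_bounded ((hs0 γ).mul_right (‖g‖ * C)) fun i => ?_
    rw [Real.norm_eq_abs, abs_mul]
    exact mul_le_mul_of_nonneg_left (hgv g i) (abs_nonneg _)
  refine le_of_small (K := ρ * ∑ j, ‖f j‖) fun ε hε => ?_
  obtain ⟨en, hen⟩ := exists_surjective_nat (Finset (I × ℚ) × Finset (I × ℚ))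
  obtain ⟨G, T, g0, g2, g3, g4⟩ := hA (fun n => z (en n)) (Finset.univ.image x) ε hε
  have g1 : ∀ p, z p ∈ G := fun p => by
    obtain ⟨n, rfl⟩ := hen p
    exact g0 n
  have g2' : ∀ j, κ (x j) ∈ G := fun j => g2 _ (Finset.mem_image_of_mem x (Finset.mem_univ j))
  have g4' : ∀ j, ‖T (κ (x j)) - x j‖ ≤ ε := fun j =>
    g4 _ (Finset.mem_image_of_mem x (Finset.mem_univ j))
  have T1 : ∀ S : Finset (I × ℚ), ∑ s ∈ S.powerset, ‖T (z (S, s))‖ ≤ L * c := by
    intro S
    refine (Finset.sum_le_sum fun s _ => g3 _ (g1 (S, s))).trans ?_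
    rw [← Finset.mul_sum]
    exact mul_le_mul_of_nonneg_left (Z1 S) hL
  set V : Finset (I × ℚ) → I → ℝ := fun S i => ∑ s ∈ S.powerset, |e i (T (z (S, s)))| with hV
  have V1 : ∀ i, Monotone fun S => V S i := by
    intro i S S' hS
    simp only [hV]
    rw [← Finset.sum_fiberwise_of_maps_to (s := S'.powerset) (t := S.powerset)
      (g := fun s' => s' ∩ S) (fun s' _ => Finset.mem_powerset.2 Finset.inter_subset_right)]
    refine Finset.sum_le_sum fun s _ => ?_
    rw [Z2 S S' hS s, map_sum, map_sum]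
    exact Finset.abs_sum_le_sum_abs _ _
  have V2 : ∀ S (F : Finset I), ∑ i ∈ F, V S i ≤ C * (L * c) := by
    intro S F
    simp only [hV]
    rw [Finset.sum_comm]
    refine (Finset.sum_le_sum fun s _ => he F _).trans ?_
    rw [← Finset.mul_sum]
    exact mul_le_mul_of_nonneg_left (T1 S) hC
  have V3 : ∀ i, BddAbove (Set.range fun S => V S i) := fun i =>
    ⟨C * (L * c), by rintro _ ⟨S, rfl⟩; simpa using V2 S {i}⟩
  have V4 : Summable fun i => ⨆ S, V S i := by
    refine summable_of_sum_le (c := C * (L * c)) (fun i => ?_) fun F => ?_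
    · exact le_trans (Finset.sum_nonneg fun _ _ => abs_nonneg _) (le_ciSup (V3 i) ∅)
    · exact le_of_tendsto' (tendsto_finsetSum F fun i _ => tendsto_atTop_ciSup (V1 i) (V3 i))
        fun S => V2 S F
  have lim : Tendsto (fun S : Finset (I × ℚ) =>
      ∑' i, ∑ s ∈ S.powerset, e i (T (z (S, s))) * rep v S s (v i)) atTop
      (𝓝 (∑' i, ∑ j, e i (T (κ (x j))) * f j (v i))) := by
    refine tendsto_tsum_of_dominated_convergence (V4.mul_right C) (fun i => ?_)
      (Eventually.of_forall fun S i => ?_)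
    · rw [Metric.tendsto_nhds]
      intro η hη
      have hp : 0 < η / (C * (L * c) + 1) := by positivity
      refine (code_fine v i hp).mono fun S hS => ?_
      have e1 := Z3 S (v i) _ hp.le hS
      have m1 : ∑ s ∈ S.powerset, rep v S s (v i) • z (S, s) - ∑ j, f j (v i) • κ (x j) ∈ G :=
        G.sub_mem (G.sum_mem fun s _ => G.smul_mem _ (g1 _))
          (G.sum_mem fun j _ => G.smul_mem _ (g2' j))
      have e2 := (he1 i _).trans (mul_le_mul_of_nonneg_left
        ((g3 _ m1).trans (mul_le_mul_of_nonneg_left e1 hL)) hC)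
      have e0 : T (∑ s ∈ S.powerset, rep v S s (v i) • z (S, s) - ∑ j, f j (v i) • κ (x j)) =
          ∑ s ∈ S.powerset, rep v S s (v i) • T (z (S, s)) - ∑ j, f j (v i) • T (κ (x j)) :=
        lin_aux T _ _ _ _ _ _
      rw [e0] at e2
      simp only [map_sub, map_sum, map_smul, smul_eq_mul] at e2
      rw [Real.dist_eq, Finset.sum_congr rfl fun s _ => mul_comm (e i (T (z (S, s)))) _,
        Finset.sum_congr rfl fun j _ => mul_comm (e i (T (κ (x j)))) _]
      refine e2.trans_lt ?_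
      have e3 : C * (L * (c * (η / (C * (L * c) + 1)))) =
          η * (C * (L * c) / (C * (L * c) + 1)) := by ring
      rw [e3]
      refine mul_lt_of_lt_one_right hη ?_
      rw [div_lt_one (by positivity)]
      linarith
    · rw [Real.norm_eq_abs]
      refine (Finset.abs_sum_le_sum_abs _ _).trans ?_
      refine le_trans ?_ (mul_le_mul_of_nonneg_right (le_ciSup (V3 i) S) hC)
      simp only [hV]
      rw [Finset.sum_mul]
      refine Finset.sum_le_sum fun s _ => ?_
      rw [abs_mul]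
      refine mul_le_mul_of_nonneg_left ((hgv _ i).trans ?_) (abs_nonneg _)
      exact mul_le_of_le_one_left hC (rep_norm v S s)
  have b1 : ∑' i, ∑ j, e i (T (κ (x j))) * f j (v i) ≤ ρ * L * c := by
    refine le_of_tendsto' lim fun S => ?_
    rw [Summable.tsum_finsetSum fun s _ => hs _ _]
    calc ∑ s ∈ S.powerset, ∑' i, e i (T (z (S, s))) * rep v S s (v i)
        ≤ ∑ s ∈ S.powerset, ρ * ‖T (z (S, s))‖ := by
          refine Finset.sum_le_sum fun s _ => (le_abs_self _).trans ((hρ _ _).trans ?_)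
          exact mul_le_mul_of_nonneg_right (mul_le_of_le_one_right hρ0 (rep_norm v S s))
            (norm_nonneg _)
      _ ≤ ρ * (L * c) := by
          rw [← Finset.mul_sum]
          exact mul_le_mul_of_nonneg_left (T1 S) hρ0
      _ = ρ * L * c := by ring
  rw [Summable.tsum_finsetSum fun j _ => hs _ _] at b1
  have b2 : ∀ j, f j (x j) ≤ ∑' i, e i (T (κ (x j))) * f j (v i) + ρ * ‖f j‖ * ε := by
    intro j
    have e1 := hρ (T (κ (x j)) - x j) (f j)
    simp only [map_sub, sub_mul] at e1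
    rw [(hs _ _).tsum_sub (hs _ _), hx] at e1
    have e2 : ρ * ‖f j‖ * ‖T (κ (x j)) - x j‖ ≤ ρ * ‖f j‖ * ε :=
      mul_le_mul_of_nonneg_left (g4' j) (by positivity)
    linarith [(abs_le.1 e1).1]
  refine (Finset.sum_le_sum fun j _ => b2 j).trans ?_
  rw [Finset.sum_add_distrib, ← Finset.sum_mul, ← Finset.mul_sum]
  linarith

/-- **Duality.** The trace bound on a dense set gives the bounded approximation property. -/
theorem bap_of_trace {lam : ℝ} (hlam : 0 < lam) {D : Set X} (hD : Dense D)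
    (h : ∀ (A : Finset X), (∀ a ∈ A, a ∈ D) → ∀ (f : A → StrongDual ℝ X) (c : ℝ), 0 ≤ c →
      (∀ T ∈ FR X, |∑ a : A, f a (T a)| ≤ c * ‖T‖) → ∑ a : A, f a a ≤ lam * c) :
    BAP lam X := by
  classical
  have fin : ∀ (A : Finset X), (∀ a ∈ A, a ∈ D) → ∀ ε > 0, ∃ T ∈ FR X, ‖T‖ ≤ lam ∧
      ∀ a ∈ A, ‖T a - a‖ < ε := by
    intro A hA ε hε
    let ev : (X →L[ℝ] X) →ₗ[ℝ] (A → X) :=
      { toFun := fun T a => T a
        map_add' := fun _ _ => rfl
        map_smul' := fun _ _ => rfl }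
    set Q : Set (A → X) := ev '' ((FR X : Set (X →L[ℝ] X)) ∩ Metric.closedBall 0 lam) with hQ
    have hc : Convex ℝ Q := ((FR X).convex.inter (convex_closedBall _ _)).linear_image ev
    have hmem : (fun a : A => (a : X)) ∈ closure Q := by
      by_contra hn
      obtain ⟨φ, u, h1, h2⟩ := geometric_hahn_banach_closed_point hc.closure isClosed_closure hn
      let f : A → StrongDual ℝ X := fun a => φ.comp (ContinuousLinearMap.single ℝ (fun _ : A => X) a)
      have hφ : ∀ w : A → X, φ w = ∑ a, f a (w a) := by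
        intro w
        conv_lhs => rw [← Finset.univ_sum_single w]
        rw [map_sum]
        rfl
      have h3 : ∀ T ∈ FR X, ‖T‖ ≤ lam → ∑ a : A, f a (T a) < u := by
        intro T hT hn
        have := h1 (ev T) (subset_closure ⟨T, ⟨hT, by simpa using hn⟩, rfl⟩)
        rwa [hφ] at this
      have hu : 0 < u := by simpa using h3 0 (FR X).zero_mem (by simpa using hlam.le)
      have h4 : ∀ T ∈ FR X, ∑ a : A, f a (T a) ≤ u / lam * ‖T‖ := by
        intro T hT
        rcases eq_or_ne T 0 with rfl | h0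
        · simp
        have hp : 0 < ‖T‖ := norm_pos_iff.2 h0
        have := h3 ((lam / ‖T‖) • T) ((FR X).smul_mem _ hT) (by
          rw [norm_smul, Real.norm_eq_abs, abs_of_pos (by positivity), div_mul_cancel₀ _ hp.ne'])
        simp only [_root_.smul_apply, map_smul, smul_eq_mul] at this
        rw [← Finset.mul_sum, div_mul_eq_mul_div, div_lt_iff₀ hp] at this
        rw [div_mul_eq_mul_div, le_div_iff₀ hlam]
        linarith
      have h5 := h A hA f (u / lam) (by positivity) fun T hT => abs_le.2 ⟨by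
        have := h4 (-T) ((FR X).neg_mem hT)
        simp only [_root_.neg_apply, map_neg, Finset.sum_neg_distrib,
          norm_neg] at this
        linarith, h4 T hT⟩
      rw [mul_div_cancel₀ _ hlam.ne', ← hφ] at h5
      linarith
    obtain ⟨_, ⟨T, ⟨hT, hn⟩, rfl⟩, hd⟩ := Metric.mem_closure_iff.1 hmem ε hε
    refine ⟨T, hT, by simpa using hn, fun a ha => ?_⟩
    have := (dist_le_pi_dist _ _ ⟨a, ha⟩).trans_lt hd
    rw [dist_comm, dist_eq_norm] at this
    exact this
  intro K hK ε hε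
  set η : ℝ := ε / (lam + 2) with hη
  have hη0 : 0 < η := by positivity
  obtain ⟨t, ht⟩ := hK.elim_finite_subcover (fun d : D => Metric.ball (d : X) η)
    (fun _ => Metric.isOpen_ball) (fun u _ => by
      obtain ⟨d, hd, hdu⟩ := hD.exists_dist_lt u hη0
      exact Set.mem_iUnion.2 ⟨⟨d, hd⟩, by simpa using hdu⟩)
  obtain ⟨T, hT, hn, hc⟩ := fin (t.image (↑)) (by
    intro a ha
    obtain ⟨d, _, rfl⟩ := Finset.mem_image.1 ha
    exact d.2) η hη0
  refine ⟨T, hT, hn, fun u hu => ?_⟩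
  obtain ⟨d, hd, hdu⟩ := Set.mem_iUnion₂.1 (ht hu)
  have e1 := hc d (Finset.mem_image_of_mem _ hd)
  rw [Metric.mem_ball, dist_eq_norm] at hdu
  have e : T u - u = T (u - d) + (T d - d) - (u - d) := by
    rw [map_sub]; abel
  have e2 : ‖T (u - d)‖ ≤ lam * η :=
    (T.le_opNorm _).trans (mul_le_mul hn hdu.le (norm_nonneg _) hlam.le)
  have e3 : ε = (lam + 2) * η := by rw [hη]; field_simp
  rw [e]
  refine ((norm_sub_le _ _).trans (add_le_add_left (norm_add_le _ _) _)).trans_lt ?_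
  linarith

end Vale.Agent.N090R
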